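import Vale.Agent.P354B.Tool
import Vale.Agent.P354E.Sym

open MeasureTheory Set Filter Topology

namespace Vale.Agent.P354B

open Vale.Agent.P354E

lemma le_of_deriv_nonneg {f f' : ℝ → ℝ} {a b : ℝ} (hab : a ≤ b)
    (hd : ∀ x ∈ Icc a b, HasDerivAt f (f' x) x) (h : ∀ x ∈ Icc a b, 0 ≤ f' x) : f a ≤ f b := by
  have := image_le_of_deriv_right_le_deriv_boundary (f := fun _ => f a) (f' := fun _ => 0)
    (B := f) (B' := f') (a := a) (b := b) continuousOn_const
    (fun x _ => (hasDerivAt_const x _).hasDerivWithinAt) le_rfl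
    (fun x hx => (hd x hx).continuousAt.continuousWithinAt)
    (fun x hx => (hd x (Ico_subset_Icc_self hx)).hasDerivWithinAt)
    (fun x hx => h x (Ico_subset_Icc_self hx)) (x := b) ⟨hab, le_rfl⟩
  exact this

lemma le_of_deriv_nonpos {f f' : ℝ → ℝ} {a b : ℝ} (hab : a ≤ b)
    (hd : ∀ x ∈ Icc a b, HasDerivAt f (f' x) x) (h : ∀ x ∈ Icc a b, f' x ≤ 0) : f b ≤ f a := by
  have := le_of_deriv_nonneg (f := fun x => -f x) (f' := fun x => -f' x) hab
    (fun x hx => (hd x hx).neg) (fun x hx => by have := h x hx; linarith)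
  linarith

lemma IsSol.mono' {e : ℝ} {S : Fld} {D D' : Set P2} (h : IsSol e S D) (hD : D' ⊆ D) :
    IsSol e S D' :=
  ⟨⟨h.cont.r.mono hD, h.cont.w.mono hD, h.cont.p.mono hD, h.cont.l.mono hD, h.cont.n.mono hD,
    h.cont.wu.mono hD, h.cont.wv.mono hD, h.cont.pu.mono hD, h.cont.pv.mono hD⟩,
    fun q hq => h.sol q (hD hq)⟩

lemma O_pos (S : Fld) (q : P2) : 0 < S.O q := Real.exp_pos _

lemma contO {e : ℝ} {S : Fld} {D : Set P2} (h : IsSol e S D) : ContinuousOn S.O D :=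
  h.cont.w.rexp

lemma contG3 {e : ℝ} {S : Fld} {D : Set P2} (h : IsSol e S D) : ContinuousOn (G3 e S) D := by
  have hr : ∀ q ∈ D, S.r q ≠ 0 := fun q hq => (h.sol q hq).pos.ne'
  have c1 := h.cont.r
  have c2 := contO h
  have c3 := h.cont.l
  have c4 := h.cont.n
  have c5 := h.cont.pu
  have c6 := h.cont.pv
  unfold G3
  refine ((((continuousOn_const.mul c5).mul c6).sub ((c2.mul continuousOn_const).div (c1.pow 4)
    fun q hq => pow_ne_zero _ (hr q hq))).add (c2.div (continuousOn_const.mul (c1.pow 2))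
    fun q hq => mul_ne_zero two_ne_zero (pow_ne_zero _ (hr q hq)))).add
    (((continuousOn_const.mul c3).mul c4).div (c1.pow 2) fun q hq => pow_ne_zero _ (hr q hq))

lemma contG1 {e : ℝ} {S : Fld} {D : Set P2} (h : IsSol e S D) : ContinuousOn (G1 e S) D := by
  have hr : ∀ q ∈ D, S.r q ≠ 0 := fun q hq => (h.sol q hq).pos.ne'
  have c1 := h.cont.r
  have c2 := contO h
  have c3 := h.cont.l
  have c4 := h.cont.n
  unfold G1
  refine ((c2.div (continuousOn_const.mul c1) fun q hq =>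
    mul_ne_zero four_ne_zero (hr q hq)).neg.mul (continuousOn_const.sub
      (continuousOn_const.div (c1.pow 2) fun q hq => pow_ne_zero _ (hr q hq)))).sub
    ((c3.mul c4).div c1 hr)

/-- Raychaudhuri -/
lemma ray_v {e : ℝ} {S : Fld} {q : P2} (h : SolAt e S q) :
    Dv (fun q => S.l q * Real.exp (-S.w q)) q (-(S.r q * S.pv q ^ 2 * Real.exp (-S.w q))) := by
  have h1 := HasDerivAt.mul h.l_v (HasDerivAt.exp (HasDerivAt.neg h.w_v))
  refine Dv.congr_d h1 ?_
  simp only [Pi.neg_apply]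
  ring

lemma rl_u {e : ℝ} {S : Fld} {q : P2} (h : SolAt e S q) :
    Du (fun q => S.r q * S.l q) q (-(S.O q / 4) * (1 - e ^ 2 / S.r q ^ 2)) := by
  have h1 := HasDerivAt.mul h.r_u h.l_u
  refine Du.congr_d h1 ?_
  have := h.pos.ne'
  simp only [G1]
  field_simp
  ring

lemma th_u {e : ℝ} {S : Fld} {q : P2} (h : SolAt e S q) :
    Du (fun q => S.r q * S.pv q) q (-(S.l q * S.pu q)) := by
  have h1 := HasDerivAt.mul h.r_u h.pv_u
  refine Du.congr_d h1 ?_
  have := h.pos.ne'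
  simp only [G2]
  field_simp
  ring

lemma ze_v {e : ℝ} {S : Fld} {q : P2} (h : SolAt e S q) :
    Dv (fun q => S.r q * S.pu q) q (-(S.n q * S.pv q)) := by
  have h1 := HasDerivAt.mul h.r_v h.pu_v
  refine Dv.congr_d h1 ?_
  have := h.pos.ne'
  simp only [G2]
  field_simp
  ring

/-- the setting of the blue shift estimates on the triangle of p -/
structure BS (rb b0 l0 E0 e : ℝ) (S : Fld) (p : P2) : Prop where
  sol : IsSol e S (Tri p)
  he : rb ^ 2 ≤ e ^ 2
  dat : ∀ x : ℝ, S.r (-x, x) = rb ∧ S.w (-x, x) = 0 ∧ -l0 ≤ S.l (-x, x) ∧ S.l (-x, x) < 0 ∧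
    S.n (-x, x) = S.l (-x, x) ∧ S.wu (-x, x) ≤ -b0 ∧ S.wv (-x, x) ≤ -b0
  flux : ∀ a b : ℝ, a ≤ b →
    ∫ x in a..b, (1 + x ^ 2) * (S.pu (-x, x) ^ 2 + S.pv (-x, x) ^ 2) ≤ E0

variable {rb b0 l0 E0 e : ℝ} {S : Fld} {p : P2}

lemma BS.dat' (h : BS rb b0 l0 E0 e S p) (u : ℝ) : S.r (u, -u) = rb ∧ S.w (u, -u) = 0 ∧
    -l0 ≤ S.l (u, -u) ∧ S.l (u, -u) < 0 ∧ S.n (u, -u) = S.l (u, -u) ∧ S.wu (u, -u) ≤ -b0 ∧
    S.wv (u, -u) ≤ -b0 := by
  have := h.dat (-u)
  rwa [neg_neg] at this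

lemma BS.sw (h : BS rb b0 l0 E0 e S p) : BS rb b0 l0 E0 e S.sw p.swap where
  sol := IsSol.mono' h.sol.sw fun q hq => (mem_Tri_swap (p := p.swap) (q := q)).2 hq
  he := h.he
  dat x := by
    obtain ⟨h1, h2, h3, h4, h5, h6, h7⟩ := h.dat' x
    refine ⟨h1, h2, ?_, ?_, h5.symm, h7, h6⟩
    · show -l0 ≤ S.n (x, -x)
      rw [h5]; exact h3
    · show S.n (x, -x) < 0
      rw [h5]; exact h4
  flux a b hab := by
    have h1 := h.flux (-b) (-a) (by linarith)
    rw [← intervalIntegral.integral_comp_neg] at h1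
    refine le_of_eq_of_le ?_ h1
    refine intervalIntegral.integral_congr fun x _ => ?_
    simp only [neg_neg, Fld.sw, Prod.swap_prod_mk]
    ring

lemma BS.mono (h : BS rb b0 l0 E0 e S p) {q : P2} (hq : q ∈ Tri p) : BS rb b0 l0 E0 e S q :=
  ⟨IsSol.mono' h.sol (Tri_sub hq), h.he, h.dat, h.flux⟩

lemma BS.l_formula (h : BS rb b0 l0 E0 e S p) {q : P2} (hq : q ∈ Tri p) :
    S.l q * Real.exp (-S.w q) = S.l (q.1, -q.1) -
      ∫ y in (-q.1)..q.2, S.r (q.1, y) * S.pv (q.1, y) ^ 2 * Real.exp (-S.w (q.1, y)) := by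
  have hc : ContinuousOn (fun q => -(S.r q * S.pv q ^ 2 * Real.exp (-S.w q))) (Tri p) :=
    ((h.sol.cont.r.mul (h.sol.cont.pv.pow 2)).mul h.sol.cont.w.neg.rexp).neg
  have := ftcV hc (fun q hq => ray_v (h.sol.sol q hq)) (a := -q.1) (b := q.2) (u := q.1)
    (by have := hq.2.2; linarith) (segV hq)
  rw [intervalIntegral.integral_neg, (h.dat' q.1).2.1] at this
  simp only [neg_zero, Real.exp_zero, mul_one, Prod.mk.eta] at this
  linarith

lemma BS.l_neg (h : BS rb b0 l0 E0 e S p) {q : P2} (hq : q ∈ Tri p) : S.l q < 0 := by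
  have h1 := h.l_formula hq
  have h2 : 0 ≤ ∫ y in (-q.1)..q.2,
      S.r (q.1, y) * S.pv (q.1, y) ^ 2 * Real.exp (-S.w (q.1, y)) := by
    refine intervalIntegral.integral_nonneg (by have := hq.2.2; linarith) fun y hy => ?_
    have := (h.sol.sol _ (segV hq y hy)).pos
    positivity
  have h3 := (h.dat' q.1).2.2.2.1
  have h4 : S.l q * Real.exp (-S.w q) < 0 := by linarith
  by_contra hc
  push Not at hc
  have := mul_nonneg hc (Real.exp_pos (-S.w q)).le
  linarith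

lemma BS.n_neg (h : BS rb b0 l0 E0 e S p) {q : P2} (hq : q ∈ Tri p) : S.n q < 0 :=
  h.sw.l_neg (q := q.swap) (mem_Tri_swap.2 hq)

lemma BS.r_le (h : BS rb b0 l0 E0 e S p) {q : P2} (hq : q ∈ Tri p) : S.r q ≤ rb := by
  have := le_of_deriv_nonpos (f := fun y => S.r (q.1, y)) (f' := fun y => S.l (q.1, y))
    (a := -q.1) (b := q.2) (by have := hq.2.2; linarith)
    (fun y hy => (h.sol.sol _ (segV hq y hy)).r_v) fun y hy => (h.l_neg (segV hq y hy)).le
  rwa [(h.dat' q.1).1] at this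

/-- the bootstrap bound -/
noncomputable def bd (rb b0 l0 t y : ℝ) : ℝ :=
  3 * l0 * Real.exp (-(b0 / 2) * t) + rb / 10 / (1 + y ^ 2)

lemma BS.r_ge (h : BS rb b0 l0 E0 e S p) (h0 : 0 < rb) (h1 : 0 < b0) (h2 : 0 < l0)
    (h3 : 100 * l0 ≤ rb * b0) (hb : ∀ q ∈ Tri p, -S.l q ≤ bd rb b0 l0 (q.1 + q.2) q.2)
    {q : P2} (hq : q ∈ Tri p) : rb / 2 ≤ S.r q := by
  have key := le_of_deriv_nonneg
    (f := fun y => S.r (q.1, y) + (-(6 * l0 / b0) * Real.exp (-(b0 / 2) * (q.1 + y)) +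
      rb / 10 * Real.arctan y))
    (f' := fun y => S.l (q.1, y) + bd rb b0 l0 (q.1 + y) y)
    (a := -q.1) (b := q.2) (by have := hq.2.2; linarith) (fun y hy => by
      have d1 : HasDerivAt (fun y => S.r (q.1, y)) (S.l (q.1, y)) y :=
        (h.sol.sol _ (segV hq y hy)).r_v
      have d2 := (((hasDerivAt_id y).const_add q.1).const_mul (-(b0 / 2))).exp.const_mul
        (-(6 * l0 / b0))
      have d3 := (Real.hasDerivAt_arctan y).const_mul (rb / 10)
      refine HasDerivAt.congr_deriv (d1.add (d2.add d3)) ?_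
      simp only [bd, id]
      field_simp
      ring)
    fun y hy => by have := hb _ (segV hq y hy); simp only at this; linarith
  simp only [add_neg_cancel, mul_zero, Real.exp_zero, mul_one, Prod.mk.eta] at key
  rw [(h.dat' q.1).1] at key
  have a1 := Real.arctan_lt_pi_div_two q.2
  have a2 := Real.neg_pi_div_two_lt_arctan (-q.1)
  have a3 := Real.pi_lt_d2
  have a4 : 0 < 6 * l0 / b0 * Real.exp (-(b0 / 2) * (q.1 + q.2)) := by positivity
  have a5 : 6 * l0 / b0 ≤ 6 / 100 * rb := by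
    rw [div_le_iff₀ h1]; nlinarith
  nlinarith

lemma BS.l_abs (h : BS rb b0 l0 E0 e S p) (h0 : 0 < rb)
    (hr : ∀ q ∈ Tri p, rb / 2 ≤ S.r q) {q : P2} (hq : q ∈ Tri p) : -S.l q ≤ 2 * l0 := by
  have key := le_of_deriv_nonneg (f := fun y => S.r (y, q.2) * S.l (y, q.2))
    (f' := fun y => -(S.O (y, q.2) / 4) * (1 - e ^ 2 / S.r (y, q.2) ^ 2))
    (a := -q.2) (b := q.1) (by have := hq.2.2; linarith)
    (fun y hy => rl_u (h.sol.sol _ (segU hq y hy))) fun y hy => by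
      have g1 := h.r_le (segU hq y hy)
      have g2 := (h.sol.sol _ (segU hq y hy)).pos
      have g3 := O_pos S (y, q.2)
      have g4 : 1 ≤ e ^ 2 / S.r (y, q.2) ^ 2 := by
        rw [le_div_iff₀ (by positivity)]
        have := h.he
        nlinarith
      nlinarith
  simp only [Prod.mk.eta] at key
  obtain ⟨d1, -, d3, -⟩ := h.dat q.2
  rw [d1] at key
  have g1 := hr q hq
  have g2 := h.l_neg hq
  nlinarith

end Vale.Agent.P354B
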