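import Vale.Agent.P354B.Blue1

open MeasureTheory Set Filter Topology

namespace Vale.Agent.P354B

open Vale.Agent.P354E

lemma en_alg1 {x z wu wv τ : ℝ} (hu : 0 < wu) (hv : 0 < wv) (h1 : wv ≤ 2 * τ * wu)
    (h2 : wu ≤ 2 * τ * wv) (hτ : 1 ≤ τ) :
    2 * |z * x| * (wu + wv) ≤ 3 * τ * (wv * x ^ 2 + wu * z ^ 2) := by
  have hx := sq_nonneg x
  have hz := sq_nonneg z
  have s2 : 2 * |z * x| ≤ x ^ 2 + z ^ 2 := by
    rw [abs_mul]
    nlinarith [sq_nonneg (|z| - |x|), sq_abs x, sq_abs z]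
  have a1 : wv * z ^ 2 ≤ 2 * τ * wu * z ^ 2 := mul_le_mul_of_nonneg_right h1 hz
  have a2 : wu * x ^ 2 ≤ 2 * τ * wv * x ^ 2 := mul_le_mul_of_nonneg_right h2 hx
  have a3 : 2 * |z * x| * (wu + wv) ≤ (x ^ 2 + z ^ 2) * (wu + wv) :=
    mul_le_mul_of_nonneg_right s2 (by positivity)
  have a4 : 1 * (wv * x ^ 2 + wu * z ^ 2) ≤ τ * (wv * x ^ 2 + wu * z ^ 2) :=
    mul_le_mul_of_nonneg_right hτ (by positivity)
  linarith

lemma en_alg2 {x z wu wv : ℝ} (hu : 0 < wu) (hv : 0 < wv) :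
    2 * |z * x| ≤ wv / wu * x ^ 2 + wu / wv * z ^ 2 := by
  have e1 : wv / wu * x ^ 2 + wu / wv * z ^ 2 - 2 * |z * x| =
      (wv * |x| - wu * |z|) ^ 2 / (wu * wv) := by
    rw [abs_mul, ← sq_abs x, ← sq_abs z]
    field_simp
    ring
  have : 0 ≤ (wv * |x| - wu * |z|) ^ 2 / (wu * wv) := by positivity
  linarith

lemma en_alg {x z wu wv g A L N r rb τ : ℝ} (hu : 0 < wu) (hv : 0 < wv) (h1 : wv ≤ 2 * τ * wu)
    (h2 : wu ≤ 2 * τ * wv) (hτ : 1 ≤ τ) (hL0 : 0 ≤ L) (hN0 : 0 ≤ N) (hA : 0 ≤ A)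
    (hL : L ≤ A + rb / 10 / wv) (hN : N ≤ A + rb / 10 / wu) (hrb : 0 < rb) (hr : rb / 2 ≤ r)
    (hg : 6 * A * τ ≤ g * rb) :
    (-g - 2 / wu) * wv * (r * x) ^ 2 + wv * (2 * (r * x) * (L * z)) +
      ((-g - 2 / wv) * wu * (r * z) ^ 2 + wu * (2 * (r * z) * (N * x))) +
      2 * r ^ 2 * |z * x| ≤ 0 := by
  have f1 := en_alg1 (x := x) (z := z) hu hv h1 h2 hτ
  have f2 := en_alg2 (x := x) (z := z) hu hv
  have s0 : 0 ≤ |z * x| := abs_nonneg _
  have s1 : z * x ≤ |z * x| := le_abs_self _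
  generalize |z * x| = s at f1 f2 s0 s1 ⊢
  have hr0 : 0 < r := by linarith
  have T0 : 0 ≤ wv * x ^ 2 + wu * z ^ 2 := by positivity
  have f3 : L * wv + N * wu ≤ A * (wu + wv) + rb / 5 := by
    have a1 : L * wv ≤ (A + rb / 10 / wv) * wv := mul_le_mul_of_nonneg_right hL hv.le
    have a2 : N * wu ≤ (A + rb / 10 / wu) * wu := mul_le_mul_of_nonneg_right hN hu.le
    have a3 : (A + rb / 10 / wv) * wv = A * wv + rb / 10 := by field_simp
    have a4 : (A + rb / 10 / wu) * wu = A * wu + rb / 10 := by field_simp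
    linarith
  have f4 : z * x * (L * wv + N * wu) ≤ s * (A * (wu + wv) + rb / 5) :=
    (mul_le_mul_of_nonneg_right s1 (by positivity)).trans (mul_le_mul_of_nonneg_left f3 s0)
  have g0 : 0 ≤ g := by
    have : 0 ≤ 6 * A * τ := by positivity
    exact nonneg_of_mul_nonneg_left (this.trans hg) hrb
  have f5 : 3 * τ * A * (wv * x ^ 2 + wu * z ^ 2) ≤ r * g * (wv * x ^ 2 + wu * z ^ 2) := by
    refine mul_le_mul_of_nonneg_right ?_ T0
    have := mul_le_mul_of_nonneg_right hr g0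
    linarith
  have f6 := mul_le_mul_of_nonneg_left f1 hA
  have e : (-g - 2 / wu) * wv * (r * x) ^ 2 + wv * (2 * (r * x) * (L * z)) +
      ((-g - 2 / wv) * wu * (r * z) ^ 2 + wu * (2 * (r * z) * (N * x))) + 2 * r ^ 2 * s =
      r * (-(r * g * (wv * x ^ 2 + wu * z ^ 2)) - 2 * r * (wv / wu * x ^ 2 + wu / wv * z ^ 2) +
        2 * (z * x * (L * wv + N * wu)) + 2 * r * s) := by
    ring
  rw [e]
  refine mul_nonpos_of_nonneg_of_nonpos hr0.le ?_
  have f7 : 2 * r * (2 * s) ≤ 2 * r * (wv / wu * x ^ 2 + wu / wv * z ^ 2) :=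
    mul_le_mul_of_nonneg_left f2 (by positivity)
  have f8 : rb / 2 * s ≤ r * s := mul_le_mul_of_nonneg_right hr s0
  have f9 : 0 ≤ rb * s := by positivity
  linarith

/-- the constant in the weight -/
noncomputable def K1 (rb b0 l0 : ℝ) : ℝ := 18 * l0 / rb * (1 + 32 / b0 ^ 2)

/-- the weight of the energy -/
noncomputable def GW (rb b0 l0 : ℝ) (q : P2) : ℝ :=
  Real.exp (4 * K1 rb b0 l0 / b0 * Real.exp (-(b0 / 4) * (q.1 + q.2)) -
    2 * (Real.arctan q.1 + Real.arctan q.2))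

lemma GW_pos (rb b0 l0 : ℝ) (q : P2) : 0 < GW rb b0 l0 q := Real.exp_pos _

lemma GW_cont (rb b0 l0 : ℝ) : Continuous (GW rb b0 l0) := by
  have := Real.continuous_arctan
  unfold GW
  fun_prop

lemma GW_u {rb b0 l0 : ℝ} (hb : 0 < b0) (q : P2) : Du (GW rb b0 l0) q
    (GW rb b0 l0 q * (-(K1 rb b0 l0 * Real.exp (-(b0 / 4) * (q.1 + q.2))) - 2 / (1 + q.1 ^ 2))) := by
  have d1 := (((hasDerivAt_id q.1).add_const q.2).const_mul (-(b0 / 4))).exp.const_mul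
    (4 * K1 rb b0 l0 / b0)
  have d2 := ((Real.hasDerivAt_arctan q.1).add_const (Real.arctan q.2)).const_mul 2
  refine HasDerivAt.congr_deriv (d1.sub d2).exp ?_
  simp only [GW, id, Pi.sub_apply]
  field_simp

lemma GW_v {rb b0 l0 : ℝ} (hb : 0 < b0) (q : P2) : Dv (GW rb b0 l0) q
    (GW rb b0 l0 q * (-(K1 rb b0 l0 * Real.exp (-(b0 / 4) * (q.1 + q.2))) - 2 / (1 + q.2 ^ 2))) := by
  have d1 := (((hasDerivAt_id q.2).const_add q.1).const_mul (-(b0 / 4))).exp.const_mul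
    (4 * K1 rb b0 l0 / b0)
  have d2 := ((Real.hasDerivAt_arctan q.2).const_add (Real.arctan q.1)).const_mul 2
  refine HasDerivAt.congr_deriv (d1.sub d2).exp ?_
  simp only [GW, id, Pi.sub_apply]
  field_simp

lemma GW_le {rb b0 l0 : ℝ} (h0 : 0 < rb) (hb : 0 < b0) (hl : 0 < l0) {q : P2}
    (hq : 0 ≤ q.1 + q.2) : GW rb b0 l0 q ≤ Real.exp (4 * K1 rb b0 l0 / b0) := by
  refine Real.exp_le_exp.2 ?_
  have h1 : Real.arctan (-q.1) ≤ Real.arctan q.2 := Real.arctan_mono (by linarith)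
  rw [Real.arctan_neg] at h1
  have h2 : Real.exp (-(b0 / 4) * (q.1 + q.2)) ≤ 1 := Real.exp_le_one_iff.2 (by nlinarith)
  have h3 : 0 ≤ 4 * K1 rb b0 l0 / b0 := by unfold K1; positivity
  nlinarith

lemma le_GW {rb b0 l0 : ℝ} (h0 : 0 < rb) (hb : 0 < b0) (hl : 0 < l0) (q : P2) :
    Real.exp (-7) ≤ GW rb b0 l0 q := by
  refine Real.exp_le_exp.2 ?_
  have a1 := Real.arctan_lt_pi_div_two q.1
  have a2 := Real.arctan_lt_pi_div_two q.2
  have a3 := Real.pi_lt_d2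
  have h3 : 0 ≤ 4 * K1 rb b0 l0 / b0 * Real.exp (-(b0 / 4) * (q.1 + q.2)) := by
    unfold K1; positivity
  linarith

lemma poly_le_exp {c t : ℝ} (hc : 0 < c) (ht : 0 ≤ t) :
    1 + t ^ 2 ≤ (1 + 2 / c ^ 2) * Real.exp (c * t) := by
  have h1 := Real.quadratic_le_exp_of_nonneg (x := c * t) (by positivity)
  have h2 : 0 ≤ c * t := by positivity
  have h3 : 1 + (c * t) ^ 2 / 2 ≤ Real.exp (c * t) := by linarith
  calc 1 + t ^ 2 ≤ (1 + 2 / c ^ 2) * (1 + (c * t) ^ 2 / 2) := by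
        have : (1 + 2 / c ^ 2) * (1 + (c * t) ^ 2 / 2) =
            1 + t ^ 2 + ((c * t) ^ 2 / 2 + 2 / c ^ 2) := by field_simp; ring
        rw [this]
        have : 0 ≤ (c * t) ^ 2 / 2 + 2 / c ^ 2 := by positivity
        linarith
    _ ≤ _ := mul_le_mul_of_nonneg_left h3 (by positivity)

variable {rb b0 l0 E0 e : ℝ} {S : Fld} {p : P2}

/-- the divergence of the energy current -/
lemma div_le (h0 : 0 < rb) (h1 : 0 < b0) (h2 : 0 < l0) {q : P2} (hq : 0 ≤ q.1 + q.2)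
    (hl0 : S.l q < 0) (hn0 : S.n q < 0) (hr : rb / 2 ≤ S.r q)
    (hl : -S.l q ≤ bd rb b0 l0 (q.1 + q.2) q.2) (hn : -S.n q ≤ bd rb b0 l0 (q.1 + q.2) q.1) :
    (-(K1 rb b0 l0 * Real.exp (-(b0 / 4) * (q.1 + q.2))) - 2 / (1 + q.1 ^ 2)) * (1 + q.2 ^ 2) *
        (S.r q * S.pv q) ^ 2 + (1 + q.2 ^ 2) * (2 * (S.r q * S.pv q) * (-S.l q * S.pu q)) +
      ((-(K1 rb b0 l0 * Real.exp (-(b0 / 4) * (q.1 + q.2))) - 2 / (1 + q.2 ^ 2)) * (1 + q.1 ^ 2) *
        (S.r q * S.pu q) ^ 2 + (1 + q.1 ^ 2) * (2 * (S.r q * S.pu q) * (-S.n q * S.pv q))) +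
      2 * S.r q ^ 2 * |S.pu q * S.pv q| ≤ 0 := by
  refine en_alg (τ := 1 + (q.1 + q.2) ^ 2) (A := 3 * l0 * Real.exp (-(b0 / 2) * (q.1 + q.2)))
    (rb := rb) (by positivity) (by positivity) ?_ ?_ (by nlinarith [sq_nonneg (q.1 + q.2)])
    (by linarith) (by linarith) (by positivity) hl hn h0 hr ?_
  · nlinarith [sq_nonneg (2 * q.1 + q.2), sq_nonneg ((q.1 + q.2) * q.1), sq_nonneg q.1]
  · nlinarith [sq_nonneg (2 * q.2 + q.1), sq_nonneg ((q.1 + q.2) * q.2), sq_nonneg q.2]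
  · have a1 := poly_le_exp (c := b0 / 4) (t := q.1 + q.2) (by positivity) hq
    have e1 : Real.exp (-(b0 / 2) * (q.1 + q.2)) * Real.exp (b0 / 4 * (q.1 + q.2)) =
        Real.exp (-(b0 / 4) * (q.1 + q.2)) := by
      rw [← Real.exp_add]; congr 1; ring
    have e2 : K1 rb b0 l0 * Real.exp (-(b0 / 4) * (q.1 + q.2)) * rb =
        18 * l0 * Real.exp (-(b0 / 2) * (q.1 + q.2)) *
          ((1 + 2 / (b0 / 4) ^ 2) * Real.exp (b0 / 4 * (q.1 + q.2))) := by
      rw [← e1, K1]; field_simp; ring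
    rw [e2]
    have := mul_le_mul_of_nonneg_left a1
      (show 0 ≤ 18 * l0 * Real.exp (-(b0 / 2) * (q.1 + q.2)) by positivity)
    linarith

/-- the energy estimate -/
lemma BS.energy {a b : ℝ} (h : BS rb b0 l0 E0 e S (a, b)) (hab : 0 ≤ a + b) (h0 : 0 < rb)
    (h1 : 0 < b0) (h2 : 0 < l0) (hr : ∀ q ∈ Tri (a, b), rb / 2 ≤ S.r q)
    (hl : ∀ q ∈ Tri (a, b), -S.l q ≤ bd rb b0 l0 (q.1 + q.2) q.2)
    (hn : ∀ q ∈ Tri (a, b), -S.n q ≤ bd rb b0 l0 (q.1 + q.2) q.1) :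
    (∫ v in (-a)..b, (1 + v ^ 2) * S.pv (a, v) ^ 2) + (∫ u in (-b)..a, (1 + u ^ 2) * S.pu (u, b) ^ 2)
      + ∫ v in (-a)..b, ∫ u in (-v)..a, 2 * |S.pu (u, v) * S.pv (u, v)| ≤
      4 * Real.exp (4 * K1 rb b0 l0 / b0 + 7) * E0 := by
  set G := GW rb b0 l0 with hG
  have cG : ContinuousOn G (Tri (a, b)) := (GW_cont rb b0 l0).continuousOn
  have cr := h.sol.cont.r
  have cl := h.sol.cont.l
  have cn := h.sol.cont.n
  have cu := h.sol.cont.pu
  have cv := h.sol.cont.pv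
  have c1 : ContinuousOn (fun q : P2 => 1 + q.1 ^ 2) (Tri (a, b)) := by fun_prop
  have c2 : ContinuousOn (fun q : P2 => 1 + q.2 ^ 2) (Tri (a, b)) := by fun_prop
  have c3 : ContinuousOn (fun q : P2 => -(K1 rb b0 l0 * Real.exp (-(b0 / 4) * (q.1 + q.2))) -
      2 / (1 + q.1 ^ 2)) (Tri (a, b)) :=
    ContinuousOn.sub (by fun_prop) (continuousOn_const.div c1 fun q _ => by positivity)
  have c4 : ContinuousOn (fun q : P2 => -(K1 rb b0 l0 * Real.exp (-(b0 / 4) * (q.1 + q.2))) -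
      2 / (1 + q.2 ^ 2)) (Tri (a, b)) :=
    ContinuousOn.sub (by fun_prop) (continuousOn_const.div c2 fun q _ => by positivity)
  set Pu : P2 → ℝ := fun q => G q * ((-(K1 rb b0 l0 * Real.exp (-(b0 / 4) * (q.1 + q.2))) -
    2 / (1 + q.1 ^ 2)) * (1 + q.2 ^ 2) * (S.r q * S.pv q) ^ 2 +
    (1 + q.2 ^ 2) * (2 * (S.r q * S.pv q) * (-S.l q * S.pu q))) with hPu
  set Qv : P2 → ℝ := fun q => G q * ((-(K1 rb b0 l0 * Real.exp (-(b0 / 4) * (q.1 + q.2))) -
    2 / (1 + q.2 ^ 2)) * (1 + q.1 ^ 2) * (S.r q * S.pu q) ^ 2 +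
    (1 + q.1 ^ 2) * (2 * (S.r q * S.pu q) * (-S.n q * S.pv q))) with hQv
  have cPu : ContinuousOn Pu (Tri (a, b)) :=
    cG.mul (((c3.mul c2).mul ((cr.mul cv).pow 2)).add
      (c2.mul ((continuousOn_const.mul (cr.mul cv)).mul (cl.neg.mul cu))))
  have cQv : ContinuousOn Qv (Tri (a, b)) :=
    cG.mul (((c4.mul c1).mul ((cr.mul cu).pow 2)).add
      (c1.mul ((continuousOn_const.mul (cr.mul cu)).mul (cn.neg.mul cv))))
  have cP : ContinuousOn (fun q => G q * (1 + q.2 ^ 2) * (S.r q * S.pv q) ^ 2) (Tri (a, b)) :=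
    (cG.mul c2).mul ((cr.mul cv).pow 2)
  have cQ : ContinuousOn (fun q => G q * (1 + q.1 ^ 2) * (S.r q * S.pu q) ^ 2) (Tri (a, b)) :=
    (cG.mul c1).mul ((cr.mul cu).pow 2)
  have gr := green hab cP cQ cPu cQv
    (fun q hq => by
      have d1 := HasDerivAt.mul (HasDerivAt.mul_const (GW_u (rb := rb) (l0 := l0) h1 q)
        (1 + q.2 ^ 2)) (HasDerivAt.pow (th_u (h.sol.sol q hq)) 2)
      refine HasDerivAt.congr_deriv d1 ?_
      simp only [hPu, hG, Prod.mk.eta, Pi.pow_apply]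
      push_cast
      ring)
    (fun q hq => by
      have d1 := HasDerivAt.mul (HasDerivAt.mul_const (GW_v (rb := rb) (l0 := l0) h1 q)
        (1 + q.1 ^ 2)) (HasDerivAt.pow (ze_v (h.sol.sol q hq)) 2)
      refine HasDerivAt.congr_deriv d1 ?_
      simp only [hQv, hG, Prod.mk.eta, Pi.pow_apply]
      push_cast
      ring)
  have hab1 : -a ≤ b := by linarith
  have hab2 : -b ≤ a := by linarith
  have m7 := Real.exp_pos (-7)
  set k := Real.exp (-7) * (rb ^ 2 / 4) with hk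
  have k0 : 0 < k := by positivity
  have low : ∀ q ∈ Tri (a, b), k ≤ G q * S.r q ^ 2 := fun q hq => by
    have g1 := le_GW h0 h1 h2 q
    have g2 := hr q hq
    have g3 : rb ^ 2 / 4 ≤ S.r q ^ 2 := by nlinarith
    exact mul_le_mul g1 g3 (by positivity) (GW_pos _ _ _ _).le
  have top : (a, b) ∈ Tri (a, b) := self_mem_Tri hab
  have i1 : k * ∫ v in (-a)..b, (1 + v ^ 2) * S.pv (a, v) ^ 2 ≤
      ∫ v in (-a)..b, G (a, v) * (1 + v ^ 2) * (S.r (a, v) * S.pv (a, v)) ^ 2 := by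
    rw [← intervalIntegral.integral_const_mul]
    refine intervalIntegral.integral_mono_on hab1
      ((intV (c2.mul (cv.pow 2)) hab1 (segV top)).const_mul k) (intV cP hab1 (segV top))
      fun y hy => ?_
    have := mul_le_mul_of_nonneg_right (low _ (segV top y hy))
      (show 0 ≤ (1 + y ^ 2) * S.pv (a, y) ^ 2 by positivity)
    simp only at this
    linarith
  have i2 : k * ∫ u in (-b)..a, (1 + u ^ 2) * S.pu (u, b) ^ 2 ≤
      ∫ u in (-b)..a, G (u, b) * (1 + u ^ 2) * (S.r (u, b) * S.pu (u, b)) ^ 2 := by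
    rw [← intervalIntegral.integral_const_mul]
    refine intervalIntegral.integral_mono_on hab2
      ((intU (c1.mul (cu.pow 2)) hab2 (segU top)).const_mul k) (intU cQ hab2 (segU top))
      fun y hy => ?_
    have := mul_le_mul_of_nonneg_right (low _ (segU top y hy))
      (show 0 ≤ (1 + y ^ 2) * S.pu (y, b) ^ 2 by positivity)
    simp only at this
    linarith
  have cB : ContinuousOn (fun q => 2 * |S.pu q * S.pv q|) (Tri (a, b)) :=
    continuousOn_const.mul (cu.mul cv).abs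
  have i3 : ∫ v in (-a)..b, ∫ u in (-v)..a, (Pu (u, v) + Qv (u, v)) ≤
      -k * ∫ v in (-a)..b, ∫ u in (-v)..a, 2 * |S.pu (u, v) * S.pv (u, v)| := by
    rw [← intervalIntegral.integral_const_mul]
    refine intervalIntegral.integral_mono_on hab1
      ((cont_intU hab (cPu.add cQv)).intervalIntegrable_of_Icc hab1)
      (((cont_intU hab cB).intervalIntegrable_of_Icc hab1).const_mul _) fun v hv => ?_
    have hq : (a, v) ∈ Tri (a, b) := segV top v hv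
    have h3 : -v ≤ a := by have := hv.1; linarith
    rw [← intervalIntegral.integral_const_mul]
    refine intervalIntegral.integral_mono_on h3 (intU (cPu.add cQv) h3 (segU hq))
      ((intU cB h3 (segU hq)).const_mul _) fun y hy => ?_
    have hy' : (y, v) ∈ Tri (a, b) := segU hq y hy
    have g1 := div_le h0 h1 h2 hy'.2.2 (h.l_neg hy') (h.n_neg hy') (hr _ hy') (hl _ hy') (hn _ hy')
    have g2 := mul_le_mul_of_nonneg_left g1 (GW_pos rb b0 l0 (y, v)).le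
    have g3 := mul_le_mul_of_nonneg_right (low _ hy')
      (show 0 ≤ 2 * |S.pu (y, v) * S.pv (y, v)| by positivity)
    simp only [hPu, hQv, hG] at g3 ⊢
    linarith
  have i4 : ∫ x in (-a)..b, (G (-x, x) * (1 + x ^ 2) * (S.r (-x, x) * S.pv (-x, x)) ^ 2 +
      G (-x, x) * (1 + (-x) ^ 2) * (S.r (-x, x) * S.pu (-x, x)) ^ 2) ≤
      Real.exp (4 * K1 rb b0 l0 / b0) * rb ^ 2 * E0 := by
    refine le_trans ?_ (mul_le_mul_of_nonneg_left (h.flux (-a) b hab1) (by positivity))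
    rw [← intervalIntegral.integral_const_mul]
    refine intervalIntegral.integral_mono_on hab1
      ((diag_cont (cP.add cQ)).intervalIntegrable_of_Icc hab1)
      (((diag_cont (c2.mul ((cu.pow 2).add (cv.pow 2)))).intervalIntegrable_of_Icc hab1).const_mul
        _) fun x _ => ?_
    rw [(h.dat x).1]
    have g1 := GW_le h0 h1 h2 (q := (-x, x)) (by simp)
    have g2 := mul_le_mul_of_nonneg_right g1
      (show 0 ≤ rb ^ 2 * ((1 + x ^ 2) * (S.pu (-x, x) ^ 2 + S.pv (-x, x) ^ 2)) by positivity)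
    linarith
  simp only at gr
  have e1 : k * (4 * Real.exp (4 * K1 rb b0 l0 / b0 + 7) * E0) =
      Real.exp (4 * K1 rb b0 l0 / b0) * rb ^ 2 * E0 := by
    have : Real.exp (-7) * Real.exp 7 = 1 := by rw [← Real.exp_add]; simp
    rw [hk, Real.exp_add]
    linear_combination (Real.exp (4 * K1 rb b0 l0 / b0) * rb ^ 2 * E0) * this
  refine le_of_mul_le_mul_left ?_ k0
  rw [e1]
  linarith

end Vale.Agent.P354B
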