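import Vale.Agent.P354B.Blue2
import Vale.Agent.P354E.Iface

open MeasureTheory Set Filter Topology

namespace Vale.Agent.P354B

open Vale.Agent.P354E

variable {rb b0 l0 E0 E1 e : ℝ} {S : Fld} {p : P2}

/-- the bound for the v derivative of w -/
lemma BS.wv_le (h : BS rb b0 l0 E0 e S p) (h0 : 0 < rb) (h2 : 0 < l0)
    (h3 : 100 * l0 ≤ rb * b0) (hr : ∀ q ∈ Tri p, rb / 2 ≤ S.r q) {q : P2} (hq : q ∈ Tri p) :
    S.wv q ≤ -(b0 / 2) + ∫ y in (-q.2)..q.1, 2 * |S.pu (y, q.2) * S.pv (y, q.2)| := by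
  have hab : -q.2 ≤ q.1 := by have := hq.2.2; linarith
  have hr0 : ∀ q ∈ Tri p, S.r q ≠ 0 := fun q hq => (h.sol.sol q hq).pos.ne'
  have f1 := ftcU (contG3 h.sol) (fun q hq => (h.sol.sol q hq).wv_u) hab (segU hq)
  have cB : ContinuousOn (fun q => 2 * |S.pu q * S.pv q|) (Tri p) :=
    continuousOn_const.mul (h.sol.cont.pu.mul h.sol.cont.pv).abs
  have cN : ContinuousOn (fun q => -S.n q / S.r q ^ 2) (Tri p) :=
    h.sol.cont.n.neg.div (h.sol.cont.r.pow 2) fun q hq => pow_ne_zero _ (hr0 q hq)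
  have f2 := ftcU (f := fun q => (S.r q)⁻¹) cN
    (fun q hq => HasDerivAt.inv (h.sol.sol q hq).r_u (hr0 q hq)) hab (segU hq)
  have f3 : ∫ y in (-q.2)..q.1, G3 e S (y, q.2) ≤ ∫ y in (-q.2)..q.1,
      (2 * |S.pu (y, q.2) * S.pv (y, q.2)| + 4 * l0 * (-S.n (y, q.2) / S.r (y, q.2) ^ 2)) := by
    refine intervalIntegral.integral_mono_on hab (intU (contG3 h.sol) hab (segU hq))
      ((intU cB hab (segU hq)).add ((intU cN hab (segU hq)).const_mul _)) fun y hy => ?_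
    have hy' := segU hq y hy
    have g1 := h.l_abs h0 hr hy'
    have g2 := h.n_neg hy'
    have g3 := (h.sol.sol _ hy').pos
    have g4 := h.r_le hy'
    have g5 := O_pos S (y, q.2)
    have g6 := neg_abs_le (S.pu (y, q.2) * S.pv (y, q.2))
    have g7 : S.O (y, q.2) / (2 * S.r (y, q.2) ^ 2) ≤ S.O (y, q.2) * e ^ 2 / S.r (y, q.2) ^ 4 := by
      rw [div_le_div_iff₀ (by positivity) (by positivity)]
      have a1 : S.r (y, q.2) ^ 2 ≤ e ^ 2 := by have := h.he; nlinarith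
      have a2 := mul_le_mul_of_nonneg_left a1
        (show 0 ≤ S.O (y, q.2) * S.r (y, q.2) ^ 2 by positivity)
      have a3 : 0 ≤ S.O (y, q.2) * S.r (y, q.2) ^ 2 * e ^ 2 := by positivity
      nlinarith
    have g8 : 2 * S.l (y, q.2) * S.n (y, q.2) / S.r (y, q.2) ^ 2 ≤
        4 * l0 * (-S.n (y, q.2) / S.r (y, q.2) ^ 2) := by
      rw [← mul_div_assoc]
      refine div_le_div_of_nonneg_right ?_ (by positivity)
      nlinarith
    simp only [G3]
    linarith
  rw [intervalIntegral.integral_add (intU cB hab (segU hq))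
    ((intU cN hab (segU hq)).const_mul _), intervalIntegral.integral_const_mul (4 * l0), f1,
    f2] at f3
  obtain ⟨d1, -, -, -, -, -, d7⟩ := h.dat q.2
  simp only [Prod.mk.eta] at f3
  rw [d1] at f3
  have g1 := hr q hq
  have g2 : (S.r q)⁻¹ ≤ 2 * rb⁻¹ := by
    have : (S.r q)⁻¹ ≤ (rb / 2)⁻¹ := inv_anti₀ (by positivity) g1
    rwa [inv_div, div_eq_mul_inv] at this
  have g3 : 4 * l0 * rb⁻¹ ≤ b0 / 2 := by
    rw [← div_eq_mul_inv, div_le_iff₀ h0]; nlinarith
  nlinarith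

/-- the decay of Omega along outgoing rays -/
lemma BS.ratio {a b : ℝ} (h : BS rb b0 l0 E0 e S (a, b)) (hab : 0 ≤ a + b) (h0 : 0 < rb)
    (h2 : 0 < l0) (h3 : 100 * l0 ≤ rb * b0) (hr : ∀ q ∈ Tri (a, b), rb / 2 ≤ S.r q)
    (hE : ∫ v in (-a)..b, ∫ u in (-v)..a, 2 * |S.pu (u, v) * S.pv (u, v)| ≤ E1) {y : ℝ}
    (hy : y ∈ Icc (-a) b) : S.w (a, b) - S.w (a, y) ≤ E1 - b0 / 2 * (b - y) := by
  have top : (a, b) ∈ Tri (a, b) := self_mem_Tri hab
  have hab1 : -a ≤ b := by linarith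
  have hs : ∀ s ∈ Icc y b, (a, s) ∈ Tri (a, b) := fun s hs =>
    segV top s ⟨hy.1.trans hs.1, hs.2⟩
  have f1 := ftcV h.sol.cont.wv (fun q hq => (h.sol.sol q hq).w_v) hy.2 hs
  have cB : ContinuousOn (fun q => 2 * |S.pu q * S.pv q|) (Tri (a, b)) :=
    continuousOn_const.mul (h.sol.cont.pu.mul h.sol.cont.pv).abs
  have cI := cont_intU hab cB
  have iI : IntervalIntegrable (fun v => ∫ u in (-v)..a, 2 * |S.pu (u, v) * S.pv (u, v)|)
      volume y b := (cI.mono (Icc_subset_Icc hy.1 le_rfl)).intervalIntegrable_of_Icc hy.2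
  have f2 : ∫ s in y..b, S.wv (a, s) ≤
      ∫ s in y..b, (-(b0 / 2) + ∫ u in (-s)..a, 2 * |S.pu (u, s) * S.pv (u, s)|) :=
    intervalIntegral.integral_mono_on hy.2 (intV h.sol.cont.wv hy.2 hs)
      (intervalIntegrable_const.add iI) fun s hs' => h.wv_le h0 h2 h3 hr (hs s hs')
  rw [intervalIntegral.integral_add intervalIntegrable_const iI, f1] at f2
  have f3 : ∫ s in y..b, ∫ u in (-s)..a, 2 * |S.pu (u, s) * S.pv (u, s)| ≤
      ∫ s in (-a)..b, ∫ u in (-s)..a, 2 * |S.pu (u, s) * S.pv (u, s)| := by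
    refine intervalIntegral.integral_mono_interval hy.1 hy.2 le_rfl ?_
      (cI.intervalIntegrable_of_Icc hab1)
    refine (ae_restrict_iff' measurableSet_Ioc).2 (Eventually.of_forall fun s hs' => ?_)
    exact intervalIntegral.integral_nonneg (by have := hs'.1; linarith) fun _ _ => by positivity
  simp only [intervalIntegral.integral_const, smul_eq_mul] at f2
  linarith

/-- the improved bound for l -/
lemma BS.improve {a b : ℝ} (h : BS rb b0 l0 E0 e S (a, b)) (hab : 0 ≤ a + b) (h0 : 0 < rb)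
    (h1 : 0 < b0) (h2 : 0 < l0) (hE1 : E1 = 1 / (60 * (1 + 2 / (b0 / 2) ^ 2)))
    (hw : ∀ y ∈ Icc (-a) b, S.w (a, b) - S.w (a, y) ≤ E1 - b0 / 2 * (b - y))
    (hE : ∫ v in (-a)..b, (1 + v ^ 2) * S.pv (a, v) ^ 2 ≤ E1) :
    -S.l (a, b) < bd rb b0 l0 (a + b) b := by
  have top : (a, b) ∈ Tri (a, b) := self_mem_Tri hab
  have hab1 : -a ≤ b := by linarith
  set k := 1 + 2 / (b0 / 2) ^ 2 with hk
  have k1 : 1 ≤ k := by
    have : 0 ≤ 2 / (b0 / 2) ^ 2 := by positivity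
    linarith
  have E1le : E1 ≤ 1 := by
    rw [hE1, div_le_one (by positivity)]; linarith
  have ex : Real.exp E1 < 3 :=
    lt_of_le_of_lt (Real.exp_le_exp.2 E1le) (Real.exp_one_lt_d9.trans (by norm_num))
  have f1 := h.l_formula top
  simp only at f1
  have cI : ContinuousOn (fun q => S.r q * S.pv q ^ 2 * Real.exp (-S.w q)) (Tri (a, b)) :=
    (h.sol.cont.r.mul (h.sol.cont.pv.pow 2)).mul h.sol.cont.w.neg.rexp
  have c2 : ContinuousOn (fun q : P2 => (1 + q.2 ^ 2) * S.pv q ^ 2) (Tri (a, b)) :=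
    ContinuousOn.mul (by fun_prop) (h.sol.cont.pv.pow 2)
  have f2 : Real.exp (S.w (a, b)) *
      ∫ y in (-a)..b, S.r (a, y) * S.pv (a, y) ^ 2 * Real.exp (-S.w (a, y)) ≤
      6 * k * rb / (1 + b ^ 2) * ∫ v in (-a)..b, (1 + v ^ 2) * S.pv (a, v) ^ 2 := by
    rw [← intervalIntegral.integral_const_mul, ← intervalIntegral.integral_const_mul]
    refine intervalIntegral.integral_mono_on hab1 ((intV cI hab1 (segV top)).const_mul _)
      ((intV c2 hab1 (segV top)).const_mul _) fun y hy => ?_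
    have g1 := hw y hy
    have g2 := h.r_le (segV top y hy)
    have g3 := (h.sol.sol _ (segV top y hy)).pos
    simp only at g2 g3
    have g4 := poly_le_exp (c := b0 / 2) (t := b - y) (by positivity) (by have := hy.2; linarith)
    have g5 : Real.exp (S.w (a, b)) * Real.exp (-S.w (a, y)) * Real.exp (b0 / 2 * (b - y)) ≤ 3 := by
      rw [← Real.exp_add, ← Real.exp_add]
      exact (Real.exp_le_exp.2 (by linarith)).trans ex.le
    have g6 : 1 + b ^ 2 ≤ 2 * (1 + (b - y) ^ 2) * (1 + y ^ 2) := by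
      nlinarith [sq_nonneg (b - 2 * y), sq_nonneg ((b - y) * y), sq_nonneg y]
    set X := Real.exp (S.w (a, b)) * Real.exp (-S.w (a, y)) with hX
    have X0 : 0 < X := by positivity
    have g7 : X * (1 + b ^ 2) ≤ 6 * k * (1 + y ^ 2) := by
      calc X * (1 + b ^ 2) ≤ X * (2 * (k * Real.exp (b0 / 2 * (b - y))) * (1 + y ^ 2)) := by
            refine mul_le_mul_of_nonneg_left (g6.trans ?_) X0.le
            exact mul_le_mul_of_nonneg_right (by linarith) (by positivity)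
        _ = 2 * k * (1 + y ^ 2) * (X * Real.exp (b0 / 2 * (b - y))) := by ring
        _ ≤ 2 * k * (1 + y ^ 2) * 3 := mul_le_mul_of_nonneg_left g5 (by positivity)
        _ = _ := by ring
    have g8 : X ≤ 6 * k * (1 + y ^ 2) / (1 + b ^ 2) := by
      rw [le_div_iff₀ (by positivity)]; exact g7
    calc Real.exp (S.w (a, b)) * (S.r (a, y) * S.pv (a, y) ^ 2 * Real.exp (-S.w (a, y)))
        = X * S.r (a, y) * S.pv (a, y) ^ 2 := by rw [hX]; ring
      _ ≤ 6 * k * (1 + y ^ 2) / (1 + b ^ 2) * rb * S.pv (a, y) ^ 2 := by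
          refine mul_le_mul_of_nonneg_right ?_ (sq_nonneg _)
          exact mul_le_mul g8 g2 g3.le (by positivity)
      _ = _ := by ring
  have f3 : 6 * k * rb / (1 + b ^ 2) * ∫ v in (-a)..b, (1 + v ^ 2) * S.pv (a, v) ^ 2 ≤
      rb / 10 / (1 + b ^ 2) := by
    refine (mul_le_mul_of_nonneg_left hE (by positivity)).trans (le_of_eq ?_)
    rw [hE1]; field_simp; ring
  obtain ⟨-, d2, d3, d4, -⟩ := h.dat' a
  have f4 := hw (-a) ⟨le_rfl, hab1⟩
  rw [d2] at f4
  have f5 : Real.exp (S.w (a, b)) < 3 * Real.exp (-(b0 / 2) * (a + b)) := by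
    calc Real.exp (S.w (a, b)) ≤ Real.exp E1 * Real.exp (-(b0 / 2) * (a + b)) := by
          rw [← Real.exp_add]; exact Real.exp_le_exp.2 (by linarith)
      _ < _ := mul_lt_mul_of_pos_right ex (Real.exp_pos _)
  have f6 : Real.exp (S.w (a, b)) * Real.exp (-S.w (a, b)) = 1 := by
    rw [← Real.exp_add]; simp
  have f7 : -S.l (a, b) = Real.exp (S.w (a, b)) * -S.l (a, -a) + Real.exp (S.w (a, b)) *
      ∫ y in (-a)..b, S.r (a, y) * S.pv (a, y) ^ 2 * Real.exp (-S.w (a, y)) := by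
    linear_combination (-Real.exp (S.w (a, b))) * f1 + S.l (a, b) * f6
  have f8 : Real.exp (S.w (a, b)) * -S.l (a, -a) ≤ Real.exp (S.w (a, b)) * l0 :=
    mul_le_mul_of_nonneg_left (by linarith) (Real.exp_pos _).le
  have f9 := mul_lt_mul_of_pos_right f5 h2
  unfold bd
  linarith

/-- all consequences of the bootstrap assumptions on one side -/
lemma BS.step {a b : ℝ} (h : BS rb b0 l0 E0 e S (a, b)) (hab : 0 ≤ a + b) (h0 : 0 < rb)
    (h1 : 0 < b0) (h2 : 0 < l0) (h3 : 100 * l0 ≤ rb * b0)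
    (hE1 : E1 = 1 / (60 * (1 + 2 / (b0 / 2) ^ 2)))
    (hE0 : 4 * Real.exp (4 * K1 rb b0 l0 / b0 + 7) * E0 ≤ E1)
    (hl : ∀ q ∈ Tri (a, b), -S.l q ≤ bd rb b0 l0 (q.1 + q.2) q.2)
    (hn : ∀ q ∈ Tri (a, b), -S.n q ≤ bd rb b0 l0 (q.1 + q.2) q.1) :
    -S.l (a, b) < bd rb b0 l0 (a + b) b ∧ rb / 2 ≤ S.r (a, b) ∧
      S.w (a, b) ≤ 1 - b0 / 2 * (a + b) ∧ ∫ y in (-a)..b, |S.pv (a, y)| ≤ 1 := by
  have top : (a, b) ∈ Tri (a, b) := self_mem_Tri hab
  have hab1 : -a ≤ b := by linarith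
  have hab2 : -b ≤ a := by linarith
  have hr : ∀ q ∈ Tri (a, b), rb / 2 ≤ S.r q := fun q hq => h.r_ge h0 h1 h2 h3 hl hq
  have en := (h.energy hab h0 h1 h2 hr hl hn).trans hE0
  have n1 : 0 ≤ ∫ v in (-a)..b, (1 + v ^ 2) * S.pv (a, v) ^ 2 :=
    intervalIntegral.integral_nonneg hab1 fun _ _ => by positivity
  have n2 : 0 ≤ ∫ u in (-b)..a, (1 + u ^ 2) * S.pu (u, b) ^ 2 :=
    intervalIntegral.integral_nonneg hab2 fun _ _ => by positivity
  have n3 : 0 ≤ ∫ v in (-a)..b, ∫ u in (-v)..a, 2 * |S.pu (u, v) * S.pv (u, v)| :=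
    intervalIntegral.integral_nonneg hab1 fun v hv =>
      intervalIntegral.integral_nonneg (by have := hv.1; linarith) fun _ _ => by positivity
  have hw := fun y hy => h.ratio (E1 := E1) hab h0 h2 h3 hr (by linarith) (y := y) hy
  have E1le : E1 ≤ 1 / 60 := by
    have : 0 ≤ 2 / (b0 / 2) ^ 2 := by positivity
    rw [hE1]
    exact one_div_le_one_div_of_le (by norm_num) (by linarith)
  refine ⟨h.improve hab h0 h1 h2 hE1 hw (by linarith), hr _ top, ?_, ?_⟩
  · have f4 := hw (-a) ⟨le_rfl, hab1⟩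
    rw [(h.dat' a).2.1] at f4
    linarith
  · have c2 : ContinuousOn (fun q : P2 => (1 + q.2 ^ 2) * S.pv q ^ 2) (Tri (a, b)) :=
      ContinuousOn.mul (by fun_prop) (h.sol.cont.pv.pow 2)
    have c3 : Continuous fun y : ℝ => 1 / (1 + y ^ 2) :=
      continuous_const.div (by fun_prop) fun y => by positivity
    have f1 : ∫ y in (-a)..b, |S.pv (a, y)| ≤
        ∫ y in (-a)..b, (1 / 8 * (1 / (1 + y ^ 2)) + 2 * ((1 + y ^ 2) * S.pv (a, y) ^ 2)) := by
      refine intervalIntegral.integral_mono_on hab1 (intV h.sol.cont.pv.abs hab1 (segV top))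
        (((c3.intervalIntegrable _ _).const_mul _).add ((intV c2 hab1 (segV top)).const_mul _))
        fun y _ => ?_
      have e1 : 1 / 8 * (1 / (1 + y ^ 2)) + 2 * ((1 + y ^ 2) * S.pv (a, y) ^ 2) - |S.pv (a, y)| =
          (1 - 4 * (1 + y ^ 2) * |S.pv (a, y)|) ^ 2 / (8 * (1 + y ^ 2)) := by
        rw [← sq_abs (S.pv (a, y))]
        field_simp
        ring
      have : 0 ≤ (1 - 4 * (1 + y ^ 2) * |S.pv (a, y)|) ^ 2 / (8 * (1 + y ^ 2)) := by positivity
      linarith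
    rw [intervalIntegral.integral_add ((c3.intervalIntegrable _ _).const_mul _)
      ((intV c2 hab1 (segV top)).const_mul _), intervalIntegral.integral_const_mul,
      intervalIntegral.integral_const_mul, integral_one_div_one_add_sq] at f1
    have a1 := Real.arctan_lt_pi_div_two b
    have a2 := Real.neg_pi_div_two_lt_arctan (-a)
    have a3 := Real.pi_lt_d2
    linarith

lemma bd_cont (rb b0 l0 : ℝ) : Continuous fun x : ℝ × ℝ => bd rb b0 l0 x.1 x.2 := by
  unfold bd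
  exact Continuous.add (by fun_prop) (continuous_const.div (by fun_prop) fun y => by positivity)

lemma BS.bounds (h : BS rb b0 l0 E0 e S p) (h0 : 0 < rb)
    (h1 : 0 < b0) (h2 : 0 < l0) (h3 : 100 * l0 ≤ rb * b0)
    (hE1 : E1 = 1 / (60 * (1 + 2 / (b0 / 2) ^ 2)))
    (hE0 : 4 * Real.exp (4 * K1 rb b0 l0 / b0 + 7) * E0 ≤ E1) :
    ∀ q ∈ Tri p, -S.l q ≤ bd rb b0 l0 (q.1 + q.2) q.2 ∧ -S.n q ≤ bd rb b0 l0 (q.1 + q.2) q.1 := by
  have key := boot (p := p) (h := fun q => max (-S.l q - bd rb b0 l0 (q.1 + q.2) q.2)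
    (-S.n q - bd rb b0 l0 (q.1 + q.2) q.1)) ?_ ?_ ?_
  · intro q hq
    have := key q hq
    rw [max_lt_iff] at this
    exact ⟨by linarith [this.1], by linarith [this.2]⟩
  · have c1 : Continuous fun q : P2 => bd rb b0 l0 (q.1 + q.2) q.2 :=
      (bd_cont rb b0 l0).comp ((continuous_fst.add continuous_snd).prodMk continuous_snd)
    have c2 : Continuous fun q : P2 => bd rb b0 l0 (q.1 + q.2) q.1 :=
      (bd_cont rb b0 l0).comp ((continuous_fst.add continuous_snd).prodMk continuous_fst)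
    exact ContinuousOn.sup (h.sol.cont.l.neg.sub c1.continuousOn)
      (h.sol.cont.n.neg.sub c2.continuousOn)
  · rintro ⟨u, v⟩ _ hq
    simp only at hq
    obtain rfl : u = -v := by linarith
    obtain ⟨-, -, d3, -, d5, -⟩ := h.dat v
    have b1 : ∀ y, l0 ≤ bd rb b0 l0 (-v + v) y := fun y => by
      have : 0 ≤ rb / 10 / (1 + y ^ 2) := by positivity
      simp only [bd, neg_add_cancel, mul_zero, Real.exp_zero, mul_one]
      linarith
    refine max_le ?_ ?_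
    · have := b1 v; simp only; linarith
    · have := b1 (-v); simp only; rw [d5]; linarith
  · rintro ⟨a, b⟩ hq hb
    have hl : ∀ q ∈ Tri (a, b), -S.l q ≤ bd rb b0 l0 (q.1 + q.2) q.2 := fun q hq => by
      have := (le_max_left _ _).trans (hb q hq); linarith
    have hn : ∀ q ∈ Tri (a, b), -S.n q ≤ bd rb b0 l0 (q.1 + q.2) q.1 := fun q hq => by
      have := (le_max_right _ _).trans (hb q hq); linarith
    have s1 := ((h.mono hq).step hq.2.2 h0 h1 h2 h3 hE1 hE0 hl hn).1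
    have s2 := (BS.step (a := b) (b := a) (h.mono hq).sw (by have := hq.2.2; simp only at this; linarith)
      h0 h1 h2 h3 hE1 hE0
      (fun q hq => by
        have := hn q.swap ((mem_Tri_swap (p := (b, a)) (q := q)).2 hq)
        rw [add_comm]; exact this)
      (fun q hq => by
        have := hl q.swap ((mem_Tri_swap (p := (b, a)) (q := q)).2 hq)
        rw [add_comm]; exact this)).1
    rw [add_comm] at s2
    refine max_lt (by simp only; linarith) ?_
    have : S.sw.l (b, a) = S.n (a, b) := rfl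
    simp only; linarith

/-- the blue shift estimates under a weaker smallness condition -/
theorem blue (rb b0 l0 : ℝ) (h0 : 0 < rb) (h1 : 0 < b0) (h2 : 0 < l0) (h3 : 100 * l0 ≤ rb * b0) :
    ∃ ε0, 0 < ε0 ∧ ∀ e S D, rb ^ 2 ≤ e ^ 2 → IsSol e S D → IsDom D →
      (∀ x : ℝ, S.r (-x, x) = rb ∧ S.w (-x, x) = 0 ∧ -l0 ≤ S.l (-x, x) ∧ S.l (-x, x) < 0 ∧
        S.n (-x, x) = S.l (-x, x) ∧ S.wu (-x, x) ≤ -b0 ∧ S.wv (-x, x) ≤ -b0) →
      (∀ a b : ℝ, a ≤ b →
        ∫ x in a..b, (1 + x ^ 2) * (S.pu (-x, x) ^ 2 + S.pv (-x, x) ^ 2) ≤ ε0 ^ 2) →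
      ∀ q ∈ D, 0 ≤ q.1 + q.2 → rb / 2 ≤ S.r q ∧ S.r q ≤ rb ∧ S.l q < 0 ∧ S.n q < 0 ∧
        S.w q ≤ 1 - b0 / 2 * (q.1 + q.2) ∧ ∫ y in (-q.1)..q.2, |S.pv (q.1, y)| ≤ 1 ∧
        ∫ y in (-q.2)..q.1, |S.pu (y, q.2)| ≤ 1 := by
  set E1 := 1 / (60 * (1 + 2 / (b0 / 2) ^ 2)) with hE1
  set K := 4 * Real.exp (4 * K1 rb b0 l0 / b0 + 7) with hK
  have K0 : 0 < K := by positivity
  have E0 : 0 < E1 := by positivity
  refine ⟨√(E1 / K), by positivity, ?_⟩
  intro e S D he hS hD hdat hfl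
  rintro ⟨a, b⟩ hq hab
  have hE0 : K * √(E1 / K) ^ 2 ≤ E1 := by
    rw [Real.sq_sqrt (by positivity)]
    exact le_of_eq (by field_simp)
  have h : BS rb b0 l0 (√(E1 / K) ^ 2) e S (a, b) :=
    ⟨IsSol.mono' hS (hD.tri _ hq), he, hdat, hfl⟩
  have top : (a, b) ∈ Tri (a, b) := self_mem_Tri hab
  have hb := h.bounds h0 h1 h2 h3 hE1 hE0
  obtain ⟨-, s2, s3, s4⟩ := h.step hab h0 h1 h2 h3 hE1 hE0 (fun q hq => (hb q hq).1)
    fun q hq => (hb q hq).2
  obtain ⟨-, -, -, s5⟩ := BS.step (a := b) (b := a) h.sw (by simp only at hab; linarith)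
      h0 h1 h2 h3 hE1 hE0
      (fun q hq => by
        have := (hb q.swap ((mem_Tri_swap (p := (b, a)) (q := q)).2 hq)).2
        rw [add_comm]; exact this)
      (fun q hq => by
        have := (hb q.swap ((mem_Tri_swap (p := (b, a)) (q := q)).2 hq)).1
        rw [add_comm]; exact this)
  exact ⟨s2, h.r_le top, h.l_neg top, h.n_neg top, s3, s4, s5⟩

theorem bBlue : BBlue := fun rb b0 l0 h0 h1 h2 h3 =>
  blue rb b0 l0 h0 h1 h2 (by
    by_contra hc
    push Not at hc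
    nlinarith [mul_lt_mul_of_pos_right hc h1])

end Vale.Agent.P354B
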