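import Mathlib

open scoped ContDiff
open MeasureTheory Set Filter Topology

namespace Vale.Agent.P354B

/-- a function which solves an implicit equation uniquely is smooth -/
lemma impl {F : ℝ × ℝ → ℝ} {τ : ℝ → ℝ} {x d : ℝ} (hF : ContDiffAt ℝ ∞ F (x, τ x))
    (hd : HasDerivAt (fun t => F (x, t)) d (τ x)) (d0 : d ≠ 0)
    (hu : ∀ᶠ z in 𝓝 (x, τ x), F z = F (x, τ x) → z.2 = τ z.1) : ContDiffAt ℝ ∞ τ x := by
  have pn : (∞ : WithTop ℕ∞) ≠ 0 := by simp
  have h1 : HasFDerivAt F (fderiv ℝ F (x, τ x)) (x, τ x) :=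
    (hF.differentiableAt pn).hasFDerivAt
  have h2 : HasFDerivAt (fun t => F (x, t))
      (fderiv ℝ F (x, τ x) ∘L ContinuousLinearMap.inr ℝ ℝ ℝ) (τ x) :=
    HasFDerivAt.comp (τ x) (g := F) (f := fun t => (x, t)) h1 (hasFDerivAt_prodMk_right x (τ x))
  have h3 := (hd.hasFDerivAt_equiv d0).unique h2
  have inv : (fderiv ℝ F (x, τ x) ∘L ContinuousLinearMap.inr ℝ ℝ ℝ).IsInvertible := ⟨_, h3⟩
  have c1 := hF.contDiffAt_implicitFunction pn inv
  have c2 := hF.eventually_apply_implicitFunction pn inv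
  have c3 := hF.implicitFunction_apply_self pn inv
  simp only at c1 c2 c3
  have c4 : Tendsto (fun y => (y, hF.implicitFunction pn inv y)) (𝓝 x) (𝓝 (x, τ x)) := by
    have := c1.continuousAt.tendsto
    rw [c3] at this
    exact tendsto_id.prodMk_nhds this
  refine c1.congr_of_eventuallyEq ?_
  filter_upwards [c2, c4.eventually hu] with y h5 h6
  exact (h6 h5).symm

/-- reparametrisation by arc length -/
lemma arc {σ : ℝ → ℝ} (hσ : ContDiff ℝ ∞ σ) (hp : ∀ x, 0 < σ x)
    (h1 : Tendsto (fun x => ∫ y in (0 : ℝ)..x, σ y) atTop atTop)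
    (h2 : Tendsto (fun x => ∫ y in (0 : ℝ)..x, σ y) atBot atBot) :
    ∃ X : ℝ → ℝ, ContDiff ℝ ∞ X ∧ (∀ s, HasDerivAt X (σ (X s))⁻¹ s) ∧ X 0 = 0 ∧
      Tendsto X atTop atTop ∧ Tendsto X atBot atBot ∧ Function.Surjective X := by
  set s : ℝ → ℝ := fun x => ∫ y in (0 : ℝ)..x, σ y with hs
  have hd : ∀ x, HasDerivAt s (σ x) x := fun x =>
    (hσ.continuous.integral_hasStrictDerivAt 0 x).hasDerivAt
  have e : deriv s = σ := funext fun x => (hd x).deriv
  have sm : ContDiff ℝ ∞ s :=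
    contDiff_infty_iff_deriv.2 ⟨fun x => (hd x).differentiableAt, e ▸ hσ⟩
  have mono : StrictMono s := strictMono_of_deriv_pos fun x => e ▸ hp x
  have sur : Function.Surjective s := sm.continuous.surjective h1 h2
  set E := mono.orderIsoOfSurjective s sur with hE
  have eE : ∀ x, E x = s x := fun x => rfl
  have c1 : ContDiff ℝ ∞ (E.toHomeomorph.symm : ℝ → ℝ) :=
    E.toHomeomorph.contDiff_symm_deriv (f' := σ) (fun x => (hp x).ne') hd sm
  refine ⟨E.symm, c1, fun t => ?_, ?_, E.symm.tendsto_atTop, E.symm.tendsto_atBot,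
    E.symm.surjective⟩
  · have := ((hσ.continuous.integral_hasStrictDerivAt 0 (E.symm t)).to_local_left_inverse
      (hp _).ne' (g := E.symm) (Eventually.of_forall fun x => E.symm_apply_apply x)).hasDerivAt
    have e2 : (∫ y in (0 : ℝ)..(E.symm t), σ y) = t := E.apply_symm_apply t
    rwa [e2] at this
  · rw [OrderIso.symm_apply_eq, eE]; simp [hs]

lemma smono {a a1 : ℝ → ℝ} (ha : ∀ s, HasDerivAt a (a1 s) s) (hp : ∀ s, 0 < a1 s) :
    StrictMono a := strictMono_of_deriv_pos fun x => (ha x).deriv ▸ hp x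

lemma lift_ge {a : ℝ → ℝ} (hc : Continuous a) (ht : Tendsto a atTop atTop) {s0 u : ℝ}
    (hu : a s0 ≤ u) : ∃ s, s0 ≤ s ∧ a s = u := by
  obtain ⟨B, hB, hB'⟩ := ((ht.eventually (eventually_ge_atTop u)).and
    (eventually_ge_atTop s0)).exists
  obtain ⟨s, hs, hs'⟩ := intermediate_value_Icc hB' hc.continuousOn ⟨hu, hB⟩
  exact ⟨s, hs.1, hs'⟩

/-- the weight exp (- c s) / a1 s as a function of u = a s -/
lemma inv_fun {a a1 : ℝ → ℝ} (ha : ∀ s, HasDerivAt a (a1 s) s) (hc : Continuous a1)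
    (hp : ∀ s, 0 < a1 s) (ht : Tendsto a atTop atTop) (s0 : ℝ) {c : ℝ} (hc0 : 0 < c) :
    ∃ f : ℝ → ℝ, ContinuousOn f (Ici (a s0)) ∧ IntegrableOn f (Ici (a s0)) ∧
      (∀ u, 0 ≤ f u) ∧ ∀ s, f (a s) = Real.exp (-c * s) / a1 s := by
  have mono := smono ha hp
  have ca : Continuous a := continuous_iff_continuousAt.2 fun s => (ha s).continuousAt
  set A := Function.invFun a with hA
  have li : ∀ s, A (a s) = s := Function.leftInverse_invFun mono.injective
  have dA : ∀ u ∈ Ici (a s0), HasDerivAt A (a1 (A u))⁻¹ u := by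
    intro u hu
    obtain ⟨s, -, rfl⟩ := lift_ge ca ht hu
    rw [li]
    exact ((hasStrictDerivAt_of_hasDerivAt_of_continuousAt (Eventually.of_forall ha)
      hc.continuousAt).to_local_left_inverse (hp s).ne' (Eventually.of_forall li)).hasDerivAt
  have tA : Tendsto A atTop atTop := by
    refine tendsto_atTop.2 fun B => ?_
    filter_upwards [eventually_ge_atTop (a B)] with u hu
    obtain ⟨s, hs, rfl⟩ := lift_ge ca ht hu
    rwa [li]
  refine ⟨fun u => Real.exp (-c * A u) / a1 (A u), ?_, ?_,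
    fun u => (div_pos (Real.exp_pos _) (hp _)).le, fun s => by simp only [li]⟩
  · have cA : ContinuousOn A (Ici (a s0)) := fun u hu => (dA u hu).continuousAt.continuousWithinAt
    exact (Real.continuous_exp.comp_continuousOn (continuousOn_const.mul cA)).div
      (hc.comp_continuousOn cA) fun u _ => (hp _).ne'
  · rw [integrableOn_Ici_iff_integrableOn_Ioi]
    refine integrableOn_Ioi_deriv_of_nonneg' (g := fun u => -(Real.exp (-c * A u) / c)) (l := -(0 / c))
      (fun u hu => ?_) (fun u _ => (div_pos (Real.exp_pos _) (hp _)).le) ?_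
    · have := (((dA u hu).const_mul (-c)).exp.div_const c).neg
      refine this.congr_deriv ?_
      have := (hp (A u)).ne'
      have := hc0.ne'
      field_simp
    · refine (Tendsto.div_const ?_ c).neg
      refine Real.tendsto_exp_atBot.comp ?_
      exact tA.const_mul_atTop_of_neg (by linarith)

/-- change of variables -/
lemma chg {b b1 g : ℝ → ℝ} (hb : ∀ s, HasDerivAt b (b1 s) s) (hc : Continuous b1)
    (hp : ∀ s, 0 < b1 s) {s t : ℝ} (hst : s ≤ t) (hg : ContinuousOn g (Icc (b s) (b t))) :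
    ∫ y in b s..b t, g y = ∫ y in s..t, g (b y) * b1 y := by
  have mono := (smono hb hp).monotone
  refine (intervalIntegral.integral_comp_mul_deriv' (fun x _ => hb x) hc.continuousOn
    (hg.mono ?_)).symm
  rintro _ ⟨x, hx, rfl⟩
  rw [uIcc_of_le hst] at hx
  exact ⟨mono hx.1, mono hx.2⟩

end Vale.Agent.P354B
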