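import Vale.Agent.P354B.Blue3

open MeasureTheory Set Filter Topology

namespace Vale.Agent.P354B

open Vale.Agent.P354E

/-- numerical facts about 1 - 2 m / r + E / r^2 for (m, E) close to (M, e0^2) -/
structure Num (M rb l0 l1 b0 η E : ℝ) : Prop where
  M0 : 0 < M
  rb0 : 0 < rb
  rbM : rb ≤ M
  l00 : 0 < l0
  l10 : 0 < l1
  b00 : 0 < b0
  small : 100 * l0 ≤ rb * b0
  hE : rb ^ 2 ≤ E
  up : ∀ m, |m - M| ≤ η → -(1 - 2 * m / rb + E / rb ^ 2) ≤ 4 * l0 ^ 2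
  blue : ∀ m, |m - M| ≤ η → 2 * rb ^ 2 * l0 * b0 ≤ E / rb - m
  low : ∀ m r, |m - M| ≤ η → rb ≤ r → r ≤ M → 4 * l1 ^ 2 ≤ -(1 - 2 * m / r + E / r ^ 2)
  red : ∀ m r, |m - M| ≤ η → M ≤ r → E / r ≤ m
  far : ∀ m r, |m - M| ≤ η → 3 * M ≤ r → 0 < 1 - 2 * m / r + E / r ^ 2

section

variable {M σ δ η E l0 l1 b0 rb m r : ℝ}

lemma num_small (hσ : 0 < σ) (hσM : σ < M) (hδ : 0 < δ) (δσ : 4 * δ ≤ σ) (hrb : rb = M - σ + δ)
    (d2 : 300 * M ^ 2 * δ ≤ (M - σ) ^ 3) (p0 : 0 < l0)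
    (q0 : l0 ^ 2 * (4 * (M - σ) ^ 2) = 3 * δ * σ)
    (q2 : b0 * (4 * M * rb ^ 2 * l0) = σ * (M - σ)) : 100 * l0 ≤ rb * b0 := by
  have hM : 0 < M := by linarith
  have hrm : 0 < M - σ := by linarith
  have r0 : 0 < rb := by linarith
  have r1 : rb ≤ M := by linarith
  have a1 : 300 * M * rb * δ ≤ 300 * M ^ 2 * δ := by
    have : M * rb ≤ M * M := mul_le_mul_of_nonneg_left r1 hM.le
    nlinarith
  have a2 := mul_le_mul_of_nonneg_right (a1.trans d2) hσ.le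
  refine le_of_mul_le_mul_right ?_ (show 0 < 4 * M * rb * l0 * (M - σ) ^ 2 by positivity)
  have e1 : 100 * l0 * (4 * M * rb * l0 * (M - σ) ^ 2) = 300 * M * rb * δ * σ := by
    linear_combination (100 * M * rb) * q0
  have e2 : rb * b0 * (4 * M * rb * l0 * (M - σ) ^ 2) = (M - σ) ^ 3 * σ := by
    linear_combination (M - σ) ^ 2 * q2
  rw [e1, e2]
  exact a2

lemma num_up (hσ : 0 < σ) (hσM : σ < M) (hδ : 0 < δ) (δσ : 4 * δ ≤ σ) (hrb : rb = M - σ + δ)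
    (e1 : 2 * (2 * M + 1) * η ≤ δ * σ) (η0 : 0 ≤ η) (E1 : -η ≤ E - (M ^ 2 - σ ^ 2))
    (q0 : l0 ^ 2 * (4 * (M - σ) ^ 2) = 3 * δ * σ) (m2 : m - M ≤ η) :
    -(1 - 2 * m / rb + E / rb ^ 2) ≤ 4 * l0 ^ 2 := by
  have hrm : 0 < M - σ := by linarith
  have r0 : 0 < rb := by linarith
  have e : -(1 - 2 * m / rb + E / rb ^ 2) = (2 * m * rb - rb ^ 2 - E) / rb ^ 2 := by
    field_simp; ring
  rw [e, div_le_iff₀ (by positivity)]
  have a0 : m * rb ≤ (M + η) * rb := mul_le_mul_of_nonneg_right (by linarith) r0.le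
  have a1 : η * rb ≤ η * M := mul_le_mul_of_nonneg_left (by linarith) η0
  have a2 : (M - σ) ^ 2 ≤ rb ^ 2 := pow_le_pow_left₀ hrm.le (by linarith) 2
  have a3 := mul_le_mul_of_nonneg_left a2 (show 0 ≤ 4 * l0 ^ 2 by positivity)
  have a4 : 2 * M * rb - rb ^ 2 = M ^ 2 - σ ^ 2 + 2 * δ * σ - δ ^ 2 := by rw [hrb]; ring
  have a5 : 0 < δ * σ := by positivity
  have a6 := sq_nonneg δ
  linarith

lemma num_blue (hσ : 0 < σ) (hσM : σ < M) (hδ : 0 < δ) (δσ : 4 * δ ≤ σ) (hrb : rb = M - σ + δ)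
    (d1 : 4 * M * δ ≤ σ * (M - σ)) (e2 : 4 * (M + 1) * η ≤ σ * (M - σ)) (η0 : 0 ≤ η)
    (E1 : -η ≤ E - (M ^ 2 - σ ^ 2)) (q2 : b0 * (4 * M * rb ^ 2 * l0) = σ * (M - σ))
    (m2 : m - M ≤ η) : 2 * rb ^ 2 * l0 * b0 ≤ E / rb - m := by
  have hM : 0 < M := by linarith
  have hrm : 0 < M - σ := by linarith
  have r0 : 0 < rb := by linarith
  have r1 : rb ≤ M := by linarith
  have e : 2 * rb ^ 2 * l0 * b0 = σ * (M - σ) / 2 / M := by
    rw [← q2]; field_simp; ring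
  have e' : E / rb - m = (E - m * rb) / rb := by field_simp
  rw [e, e']
  have a1 : σ * (M - σ) / 2 ≤ E - m * rb := by
    have a0 : m * rb ≤ (M + η) * rb := mul_le_mul_of_nonneg_right (by linarith) r0.le
    have a1 : η * rb ≤ η * M := mul_le_mul_of_nonneg_left r1 η0
    have a2 : M * rb = M ^ 2 - M * σ + M * δ := by rw [hrb]; ring
    linarith
  calc σ * (M - σ) / 2 / M ≤ σ * (M - σ) / 2 / rb :=
        div_le_div_of_nonneg_left (by positivity) r0 r1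
    _ ≤ _ := div_le_div_of_nonneg_right a1 r0.le

lemma num_low (hσ : 0 < σ) (hσM : σ < M) (hδ : 0 < δ) (δσ : 4 * δ ≤ σ) (hrb : rb = M - σ + δ)
    (e1 : 2 * (2 * M + 1) * η ≤ δ * σ) (η0 : 0 ≤ η) (E2 : E - (M ^ 2 - σ ^ 2) ≤ η)
    (q1 : l1 ^ 2 * (8 * M ^ 2) = δ * σ) (m1 : -η ≤ m - M) (h1 : rb ≤ r) (h2 : r ≤ M) :
    4 * l1 ^ 2 ≤ -(1 - 2 * m / r + E / r ^ 2) := by
  have hr : 0 < r := by linarith
  have e : -(1 - 2 * m / r + E / r ^ 2) = (2 * m * r - r ^ 2 - E) / r ^ 2 := by field_simp; ring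
  rw [e, le_div_iff₀ (by positivity)]
  have b1 : (M - η) * r ≤ m * r := mul_le_mul_of_nonneg_right (by linarith) hr.le
  have b2 : η * r ≤ η * M := mul_le_mul_of_nonneg_left h2 η0
  have b3 : (M - r) ^ 2 ≤ (σ - δ) ^ 2 := pow_le_pow_left₀ (by linarith) (by linarith) 2
  have b4 : r ^ 2 ≤ M ^ 2 := pow_le_pow_left₀ hr.le h2 2
  have b5 := mul_le_mul_of_nonneg_left b4 (show 0 ≤ 4 * l1 ^ 2 by positivity)
  have b6 : δ * δ ≤ δ * σ := mul_le_mul_of_nonneg_left (by linarith) hδ.le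
  linarith

lemma num_aux (hσ : 0 < σ) (hσM : σ < M) (hδ : 0 < δ) (hrb : rb = M - σ + δ)
    (d1 : 4 * M * δ ≤ σ * (M - σ)) (d2 : 300 * M ^ 2 * δ ≤ (M - σ) ^ 3)
    (e1 : 2 * (2 * M + 1) * η ≤ δ * σ) (e2 : 4 * (M + 1) * η ≤ σ * (M - σ))
    (e3 : (M + 1) * η ≤ σ ^ 2) (e4 : 4 * η ≤ M) (hE : |E - (M ^ 2 - σ ^ 2)| ≤ η)
    (p0 : 0 < l0) (p1 : 0 < l1) (p2 : 0 < b0) (q0 : l0 ^ 2 * (4 * (M - σ) ^ 2) = 3 * δ * σ)
    (q1 : l1 ^ 2 * (8 * M ^ 2) = δ * σ) (q2 : b0 * (4 * M * rb ^ 2 * l0) = σ * (M - σ)) :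
    Num M rb l0 l1 b0 η E := by
  have hM : 0 < M := by linarith
  have hrm : 0 < M - σ := by linarith
  have η0 : 0 ≤ η := (abs_nonneg _).trans hE
  obtain ⟨E1, E2⟩ := abs_le.1 hE
  have δσ : 4 * δ ≤ σ := by
    refine le_of_mul_le_mul_left ?_ hM
    have := sq_nonneg σ
    linarith
  have δm : 4 * δ ≤ M - σ := by
    refine le_of_mul_le_mul_left ?_ hM
    have := sq_nonneg (M - σ)
    linarith
  have Mη : 0 ≤ M * η := by positivity
  have hE' : rb ^ 2 ≤ E := by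
    have a1 : 4 * δ * (M - σ) ≤ σ * (M - σ) := mul_le_mul_of_nonneg_right δσ hrm.le
    have a2 : 4 * δ * (4 * δ) ≤ σ * (M - σ) := mul_le_mul δσ δm (by positivity) hσ.le
    have a3 : 0 < σ * (M - σ) := by positivity
    rw [hrb]
    linarith
  refine ⟨hM, by linarith, by linarith, p0, p1, p2, num_small hσ hσM hδ δσ hrb d2 p0 q0 q2, hE',
    fun m hm => num_up hσ hσM hδ δσ hrb e1 η0 E1 q0 (abs_le.1 hm).2,
    fun m hm => num_blue hσ hσM hδ δσ hrb d1 e2 η0 E1 q2 (abs_le.1 hm).2,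
    fun m r hm h1 h2 => num_low hσ hσM hδ δσ hrb e1 η0 E2 q1 (abs_le.1 hm).1 h1 h2,
    fun m r hm h1 => ?_, fun m r hm h1 => ?_⟩
  · obtain ⟨m1, m2⟩ := abs_le.1 hm
    have hr : 0 < r := by linarith
    rw [div_le_iff₀ hr]
    have b1 : (M - η) * M ≤ m * r := mul_le_mul (by linarith) h1 hM.le (by linarith)
    linarith
  · obtain ⟨m1, m2⟩ := abs_le.1 hm
    have hr : 0 < r := by linarith
    have e : 1 - 2 * m / r + E / r ^ 2 = (r * (r - 2 * m) + E) / r ^ 2 := by field_simp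
    rw [e]
    have a1 : 0 < r * (r - 2 * m) := mul_pos hr (by linarith)
    have a2 : 0 ≤ E := (sq_nonneg rb).trans hE'
    positivity

end

lemma exists_num {M e0 : ℝ} (h0 : e0 ≠ 0) (h1 : |e0| < M) :
    ∃ rb l0 l1 b0 η, rm M e0 < rb ∧ rb < rp M e0 ∧ 0 < η ∧
      ∀ E, |E - e0 ^ 2| ≤ η → Num M rb l0 l1 b0 η E := by
  have hM : 0 < M := lt_of_le_of_lt (abs_nonneg _) h1
  have he : 0 < e0 ^ 2 := by positivity
  have hs : e0 ^ 2 < M ^ 2 := by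
    rw [← sq_abs e0]; exact pow_lt_pow_left₀ h1 (abs_nonneg _) two_ne_zero
  set σ := √(M ^ 2 - e0 ^ 2) with hσd
  have hσ : 0 < σ := Real.sqrt_pos.2 (by linarith)
  have hσ2 : σ ^ 2 = M ^ 2 - e0 ^ 2 := Real.sq_sqrt (by linarith)
  have hσM : σ < M := by
    by_contra hc
    push Not at hc
    nlinarith
  have hrm : 0 < M - σ := by linarith
  set δ := min (σ * (M - σ) / (4 * M)) ((M - σ) ^ 3 / (300 * M ^ 2)) with hδd
  have hδ : 0 < δ := lt_min (by positivity) (by positivity)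
  have d1 : 4 * M * δ ≤ σ * (M - σ) := by
    have := min_le_left (σ * (M - σ) / (4 * M)) ((M - σ) ^ 3 / (300 * M ^ 2))
    rw [← hδd, le_div_iff₀ (by positivity)] at this
    linarith
  have d2 : 300 * M ^ 2 * δ ≤ (M - σ) ^ 3 := by
    have := min_le_right (σ * (M - σ) / (4 * M)) ((M - σ) ^ 3 / (300 * M ^ 2))
    rw [← hδd, le_div_iff₀ (by positivity)] at this
    linarith
  set η := min (min (δ * σ / (2 * (2 * M + 1))) (σ * (M - σ) / (4 * (M + 1))))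
    (min (σ ^ 2 / (M + 1)) (M / 4)) with hηd
  have hη : 0 < η := lt_min (lt_min (by positivity) (by positivity))
    (lt_min (by positivity) (by positivity))
  have e1 : η ≤ δ * σ / (2 * (2 * M + 1)) := (min_le_left _ _).trans (min_le_left _ _)
  have e2 : η ≤ σ * (M - σ) / (4 * (M + 1)) := (min_le_left _ _).trans (min_le_right _ _)
  have e3 : η ≤ σ ^ 2 / (M + 1) := (min_le_right _ _).trans (min_le_left _ _)
  have e4 : η ≤ M / 4 := (min_le_right _ _).trans (min_le_right _ _)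
  rw [le_div_iff₀ (by positivity)] at e1 e2 e3 e4
  have δσ : 4 * δ ≤ σ := by
    by_contra hc
    push Not at hc
    nlinarith
  have hrb : 0 < M - σ + δ := by linarith
  have p0 : 0 < √(3 * δ * σ) / (2 * (M - σ)) := by positivity
  refine ⟨M - σ + δ, √(3 * δ * σ) / (2 * (M - σ)), √(δ * σ / 8) / M,
    σ * (M - σ) / (4 * M * (M - σ + δ) ^ 2 * (√(3 * δ * σ) / (2 * (M - σ)))), η,
    by unfold rm; linarith, by unfold rp; linarith, hη,
    fun E hE => num_aux hσ hσM hδ rfl d1 d2 (by linarith) (by linarith) (by linarith) (by linarith)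
      ?_ p0 (by positivity) (by positivity) ?_ ?_ ?_⟩
  · rwa [hσ2, sub_sub_cancel]
  · rw [div_pow, Real.sq_sqrt (by positivity)]; field_simp; ring
  · rw [div_pow, Real.sq_sqrt (by positivity)]; field_simp
  · exact div_mul_cancel₀ _ (by positivity)

end Vale.Agent.P354B
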