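import Vale.Agent.P354B.Num

open MeasureTheory Set Filter Topology

namespace Vale.Agent.P354B

open Vale.Agent.P354E

/-- what is known in the region v ≥ V -/
structure Side (M rb V η F e : ℝ) (S : Fld) (D : Set P2) : Prop where
  far : ∀ x, V ≤ x → x / 2 ≤ S.r (-x, x) ∧ S.r (-x, x) ≤ 3 * x ∧ rb < S.r (-x, x)
  r1 : ∀ q ∈ D, 0 ≤ q.1 + q.2 → V ≤ q.2 → S.n q < 0 ∧ S.O q ≤ 16 * -S.n q
  r2 : ∀ q ∈ D, 0 ≤ q.1 + q.2 → V ≤ q.2 → rb ≤ S.r q → (∀ q' ∈ Tri q, rb ≤ S.r q') ∧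
    |mass e S q - M| ≤ η ∧ 4 / 5 * -S.n q ≤ S.O q ∧
    ∫ y in (-q.2)..q.1, (S.r (y, q.2) * S.pu (y, q.2)) ^ 2 / -S.n (y, q.2) ≤ 1
  r3 : ∀ (a b a1 b1 : ℝ → ℝ) (s1 s2 : ℝ), s1 ≤ s2 → ContinuousOn a1 (Icc s1 s2) →
    ContinuousOn b1 (Icc s1 s2) → (∀ s ∈ Icc s1 s2, HasDerivAt a (a1 s) s ∧
      HasDerivAt b (b1 s) s ∧ a1 s < 0 ∧ 0 < b1 s ∧ (a s, b s) ∈ D ∧ 0 ≤ a s + b s ∧
      V ≤ b s ∧ S.r (a s, b s) = rb) →
    ∫ s in s1..s2, b s ^ 2 * ((S.r (a s, b s) * S.pv (a s, b s)) ^ 2 * b1 s +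
      (S.r (a s, b s) * S.pu (a s, b s)) ^ 2 / -S.n (a s, b s) * -a1 s) ≤ F

/-- everything that is used in the proof of the structure theorem -/
structure Ctx (M rb l0 l1 b0 η V c C ε F e : ℝ) (S : Fld) (D : Set P2) : Prop where
  num : Num M rb l0 l1 b0 η (e ^ 2)
  V1 : 1 ≤ V
  c0 : 0 < c
  εη : ε ≤ η
  sol : IsSol e S D
  dom : IsDom D
  smooth : Smooth S D
  ext : ∀ (p : P2) (c' : ℝ), 0 ≤ p.1 + p.2 → 0 < c' → (∀ q ∈ D ∩ Tri p, c' ≤ S.r q) → p ∈ D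
  core : Core M rb V c C ε e S D
  R : Side M rb V η F e S D
  L : Side M rb V η F e S.sw (Prod.swap ⁻¹' D)

variable {M rb l0 l1 b0 η V c C ε F e : ℝ} {S : Fld} {D : Set P2}

lemma Ctx.sw (h : Ctx M rb l0 l1 b0 η V c C ε F e S D) :
    Ctx M rb l0 l1 b0 η V c C ε F e S.sw (Prod.swap ⁻¹' D) where
  num := h.num
  V1 := h.V1
  c0 := h.c0
  εη := h.εη
  sol := h.sol.sw
  dom := h.dom.sw
  smooth := h.smooth.sw
  ext p c' hp hc hq := by
    refine h.ext p.swap c' (by simp only [Prod.fst_swap, Prod.snd_swap]; linarith) hc ?_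
    rintro q ⟨hD, hT⟩
    exact hq q.swap ⟨hD, (mem_Tri_swap (p := p.swap) (q := q)).2 hT⟩
  core := h.core.sw
  R := h.L
  L := h.R

lemma m1_eq' (e : ℝ) (S : Fld) (q : P2) (hr : S.r q ≠ 0) :
    -(1 - 2 * mass e S q / S.r q + e ^ 2 / S.r q ^ 2) = 4 * S.l q * S.n q / S.O q := by
  have := (O_pos S q).ne'
  unfold mass; field_simp; ring

lemma G1_eq' (e : ℝ) (S : Fld) (q : P2) (hr : S.r q ≠ 0) :
    G1 e S q = S.O q / (2 * S.r q ^ 2) * (e ^ 2 / S.r q - mass e S q) := by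
  have := (O_pos S q).ne'
  unfold mass G1; field_simp; ring

lemma Ctx.diag (h : Ctx M rb l0 l1 b0 η V c C ε F e S D) (x : ℝ) : rb < S.r (-x, x) := by
  rcases le_total V x with h1 | h1
  · exact (h.R.far x h1).2.2
  rcases le_total V (-x) with h2 | h2
  · have := (h.L.far (-x) h2).2.2
    rwa [neg_neg] at this
  · exact (h.core.2.2 (-x, x) ⟨h2, h1, by simp⟩).2.2.2.2.2.2.2.2.1 (by simp)

lemma Ctx.core_past (h : Ctx M rb l0 l1 b0 η V c C ε F e S D) {q q' : P2} (hq : q ∈ Tri (V, V))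
    (hq' : q' ∈ Tri q) (hr : S.r q' < rb) : S.r q < rb := by
  have hD := h.dom.tri _ h.core.1
  have s1 : ∀ y ∈ Icc q'.1 q.1, (y, q'.2) ∈ Tri (V, V) := fun y hy =>
    Tri_sub hq ⟨hy.2, hq'.2.1, by have := hq'.2.2; have := hy.1; simp only; linarith⟩
  have s2 : ∀ y ∈ Icc q'.2 q.2, (q.1, y) ∈ Tri (V, V) := fun y hy =>
    Tri_sub hq ⟨le_rfl, hy.2, by
      have := hq'.2.2; have := hy.1; have := hq'.1; simp only; linarith⟩
  have b1 := barrier_le (f := fun y => S.r (y, q'.2)) (f' := fun y => S.n (y, q'.2))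
    (fun y hy => (h.sol.sol _ (hD (s1 y hy))).r_u) (fun y hy e => by
      have := ((h.core.2.2 _ (s1 y (Ico_subset_Icc_self hy))).2.2.2.2.2.1
        (by simp only [Prod.mk.eta] at e; rw [e]; exact hr.le)).2
      have := h.c0
      linarith) q.1 ⟨hq'.1, le_rfl⟩
  simp only [Prod.mk.eta] at b1
  have b2 := barrier_le (f := fun y => S.r (q.1, y)) (f' := fun y => S.l (q.1, y))
    (fun y hy => (h.sol.sol _ (hD (s2 y hy))).r_v) (fun y hy e => by
      have := ((h.core.2.2 _ (s2 y (Ico_subset_Icc_self hy))).2.2.2.2.2.1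
        (by rw [e]; linarith)).1
      have := h.c0
      linarith) q.2 ⟨hq'.2.1, le_rfl⟩
  simp only [Prod.mk.eta] at b2
  linarith

lemma Ctx.past (h : Ctx M rb l0 l1 b0 η V c C ε F e S D) {q : P2} (hq : q ∈ D)
    (ht : 0 ≤ q.1 + q.2) (hr : rb ≤ S.r q) : ∀ q' ∈ Tri q, rb ≤ S.r q' := by
  rcases le_total V q.2 with h1 | h1
  · exact (h.R.r2 q hq ht h1 hr).1
  rcases le_total V q.1 with h2 | h2
  · intro q' hq'
    exact (h.L.r2 q.swap hq (by simp only [Prod.fst_swap, Prod.snd_swap]; linarith) h2 hr).1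
      q'.swap (mem_Tri_swap.2 hq')
  · intro q' hq'
    by_contra hc
    push Not at hc
    have := h.core_past ⟨h2, h1, ht⟩ hq' hc
    linarith

lemma Ctx.massb (h : Ctx M rb l0 l1 b0 η V c C ε F e S D) {q : P2} (hq : q ∈ D)
    (ht : 0 ≤ q.1 + q.2) (hr : rb ≤ S.r q) : |mass e S q - M| ≤ η := by
  rcases le_total V q.2 with h1 | h1
  · exact (h.R.r2 q hq ht h1 hr).2.1
  rcases le_total V q.1 with h2 | h2
  · have := (h.L.r2 q.swap hq (by simp only [Prod.fst_swap, Prod.snd_swap]; linarith) h2 hr).2.1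
    rwa [sw_mass] at this
  · exact (h.core.2.2 q ⟨h2, h1, ht⟩).2.2.2.2.2.2.2.2.2.1.trans h.εη

/-- lower bound for l n / O where rb ≤ r ≤ M -/
lemma Ctx.ln_ge (h : Ctx M rb l0 l1 b0 η V c C ε F e S D) {q : P2} (hq : q ∈ D)
    (ht : 0 ≤ q.1 + q.2) (hr : rb ≤ S.r q) (hM : S.r q ≤ M) :
    l1 ^ 2 * S.O q ≤ S.l q * S.n q := by
  have h1 := h.num.low _ _ (h.massb hq ht hr) hr hM
  rw [m1_eq' e S q (h.sol.sol q hq).pos.ne', le_div_iff₀ (O_pos S q)] at h1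
  linarith

lemma Ctx.ln_le (h : Ctx M rb l0 l1 b0 η V c C ε F e S D) {q : P2} (hq : q ∈ D)
    (ht : 0 ≤ q.1 + q.2) (hr : S.r q = rb) : S.l q * S.n q ≤ l0 ^ 2 * S.O q := by
  have h1 := h.num.up _ (h.massb hq ht hr.ge)
  rw [← hr, m1_eq' e S q (h.sol.sol q hq).pos.ne', div_le_iff₀ (O_pos S q)] at h1
  linarith

lemma Ctx.sign (h : Ctx M rb l0 l1 b0 η V c C ε F e S D) {q : P2} (hq : q ∈ D)
    (ht : 0 ≤ q.1 + q.2) (hr : S.r q = rb) : S.l q < 0 ∧ S.n q < 0 := by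
  have h0 := h.ln_ge hq ht hr.ge (hr ▸ h.num.rbM)
  have h3 : 0 < S.l q * S.n q :=
    lt_of_lt_of_le (mul_pos (pow_pos h.num.l10 2) (O_pos S q)) h0
  rcases le_total V q.2 with h1 | h1
  · have := (h.R.r1 q hq ht h1).1
    exact ⟨neg_of_mul_pos_left h3 this.le, this⟩
  rcases le_total V q.1 with h2 | h2
  · have : S.l q < 0 :=
      (h.L.r1 q.swap hq (by simp only [Prod.fst_swap, Prod.snd_swap]; linarith) h2).1
    exact ⟨this, neg_of_mul_pos_right h3 this.le⟩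
  · have := (h.core.2.2 q ⟨h2, h1, ht⟩).2.2.2.2.2.1 hr.le
    have := h.c0
    exact ⟨by linarith, by linarith⟩

/-- the points of the line x = const -/
def ln (x τ : ℝ) : P2 := (τ - x, τ + x)

lemma ln_cont (x : ℝ) : Continuous (ln x) := by unfold ln; fun_prop

lemma Ctx.lim (h : Ctx M rb l0 l1 b0 η V c C ε F e S D) {x τ : ℝ}
    (hτ : ∀ t, 0 ≤ t → t < τ → ln x t ∈ D ∧ rb ≤ S.r (ln x t)) :
    ∀ q ∈ D ∩ Tri (ln x τ), rb ≤ S.r q := by
  rintro ⟨u, v⟩ ⟨hD, h1, h2, h3⟩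
  simp only [ln] at h1 h2 h3
  rcases eq_or_lt_of_le h3 with h4 | h4
  · obtain rfl : u = -v := by linarith
    exact (h.diag v).le
  · have hc : ContinuousAt (fun d : ℝ => S.r (u - d, v - d)) 0 := by
      have h5 : ContinuousAt S.r (u, v) := h.sol.cont.r.continuousAt (h.dom.isOpen.mem_nhds hD)
      have h6 : ContinuousAt (fun d : ℝ => ((u - d, v - d) : P2)) 0 := by fun_prop
      exact ContinuousAt.comp (by simpa using h5) h6
    have ht : Tendsto (fun d : ℝ => S.r (u - d, v - d)) (𝓝[>] 0) (𝓝 (S.r (u, v))) := by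
      have := hc.tendsto
      simp only [sub_zero] at this
      exact this.mono_left nhdsWithin_le_nhds
    refine ge_of_tendsto ht ?_
    filter_upwards [Ioo_mem_nhdsGT (show (0 : ℝ) < (u + v) / 2 by linarith)] with d hd
    obtain ⟨g1, g2⟩ := hτ (τ - d) (by have := hd.2; linarith) (by have := hd.1; linarith)
    refine h.past g1 (by simp only [ln]; have := hd.2; linarith) g2 _ ⟨?_, ?_, ?_⟩
    · simp only [ln]; linarith
    · simp only [ln]; linarith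
    · have := hd.2; simp only; linarith

lemma Ctx.exists_tau (h : Ctx M rb l0 l1 b0 η V c C ε F e S D) (x : ℝ) :
    ∃ τ, 0 < τ ∧ ln x τ ∈ D ∧ S.r (ln x τ) = rb ∧
      (∀ t, 0 ≤ t → t ≤ τ → ln x t ∈ D ∧ rb ≤ S.r (ln x t)) ∧
      ∀ t, 0 ≤ t → ln x t ∈ D → S.r (ln x t) = rb → t = τ := by
  set A : Set ℝ := {t | 0 ≤ t ∧ ln x t ∈ D ∧ rb ≤ S.r (ln x t)} with hA
  have e0 : ln x 0 = (-x, x) := by simp [ln]
  have A0 : (0 : ℝ) ∈ A := ⟨le_rfl, e0 ▸ h.dom.diag x, e0 ▸ (h.diag x).le⟩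
  have Ab : BddAbove A := by
    refine ⟨V + |x|, fun t ht => ?_⟩
    by_contra hc
    push Not at hc
    have := h.past ht.2.1 (by have := ht.1; simp only [ln]; linarith) ht.2.2 (V, V)
      ⟨by have := le_abs_self x; simp only [ln]; linarith,
        by have := neg_abs_le x; simp only [ln]; linarith, by have := h.V1; simp only; linarith⟩
    have := h.core.2.1
    linarith
  have down : ∀ t ∈ A, ∀ t', 0 ≤ t' → t' ≤ t → ln x t' ∈ D ∧ rb ≤ S.r (ln x t') := by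
    intro t ht t' h1 h2
    have hm : ln x t' ∈ Tri (ln x t) :=
      ⟨by simp only [ln]; linarith, by simp only [ln]; linarith, by simp only [ln]; linarith⟩
    exact ⟨h.dom.tri _ ht.2.1 hm,
      h.past ht.2.1 (by have := ht.1; simp only [ln]; linarith) ht.2.2 _ hm⟩
  set τ := sSup A with hτ
  have τ0 : 0 ≤ τ := le_csSup Ab A0
  have below : ∀ t, 0 ≤ t → t < τ → ln x t ∈ D ∧ rb ≤ S.r (ln x t) := by
    intro t h1 h2
    obtain ⟨t', ht', h3⟩ := exists_lt_of_lt_csSup ⟨0, A0⟩ h2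
    exact down t' ht' t h1 h3.le
  have tt : 0 ≤ (ln x τ).1 + (ln x τ).2 := by simp only [ln]; linarith
  have hD : ln x τ ∈ D := h.ext _ rb tt h.num.rb0 (h.lim below)
  have hge : rb ≤ S.r (ln x τ) := h.lim below _ ⟨hD, self_mem_Tri tt⟩
  have hA' : τ ∈ A := ⟨τ0, hD, hge⟩
  have heq : S.r (ln x τ) = rb := by
    by_contra hc
    have hlt : rb < S.r (ln x τ) := lt_of_le_of_ne hge (Ne.symm hc)
    have h5 : ContinuousAt S.r (ln x τ) := h.sol.cont.r.continuousAt (h.dom.isOpen.mem_nhds hD)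
    have h6 : ∀ᶠ t in 𝓝 τ, ln x t ∈ D ∧ rb < S.r (ln x t) :=
      ((ln_cont x).continuousAt.eventually (h.dom.isOpen.mem_nhds hD)).and
        ((h5.comp (ln_cont x).continuousAt).eventually (lt_mem_nhds hlt))
    obtain ⟨t, ht, h7⟩ := ((h6.filter_mono nhdsWithin_le_nhds).and
      (self_mem_nhdsWithin (a := τ) (s := Ioi τ))).exists
    have : t ≤ τ := le_csSup Ab ⟨τ0.trans (le_of_lt h7), ht.1, ht.2.le⟩
    exact absurd h7 (not_lt.2 this)
  refine ⟨τ, lt_of_le_of_ne τ0 fun h0 => ?_, hD, heq, down τ hA', fun t h1 h2 h3 => ?_⟩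
  · rw [← h0, e0] at heq
    exact (h.diag x).ne' heq
  · have h4 : t ≤ τ := le_csSup Ab ⟨h1, h2, h3.ge⟩
    by_contra hc
    have h5 : t < τ := lt_of_le_of_ne h4 hc
    have hn := (h.sign h2 (by simp only [ln]; linarith) h3).2
    have hd : HasDerivAt (fun y => S.r (y, t + x)) (S.n (ln x t)) (t - x) :=
      (h.sol.sol _ h2).r_u
    have h6 : ∀ᶠ y in 𝓝[>] (t - x), S.r (y, t + x) < S.r (t - x, t + x) := by
      have := (hasDerivAt_iff_tendsto_slope_left_right.1 hd).2.eventually (gt_mem_nhds hn)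
      filter_upwards [this, self_mem_nhdsWithin] with y hy hy'
      rw [slope_def_field, div_neg_iff] at hy
      have hy2 : 0 < y - (t - x) := sub_pos.2 hy'
      rcases hy with hy | hy
      · linarith [hy.2]
      · linarith [hy.1]
    obtain ⟨y, hy, hy'⟩ := (h6.and (Ioo_mem_nhdsGT (show t - x < τ - x by linarith))).exists
    have := h.past hD tt hge (y, t + x) ⟨by simp only [ln]; exact hy'.2.le,
      by simp only [ln]; linarith, by have := hy'.1; simp only; linarith⟩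
    have e : S.r (t - x, t + x) = rb := h3
    linarith

end Vale.Agent.P354B
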