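import Vale.Agent.P354B.Str1
import Vale.Agent.P354B.Gen

open scoped ContDiff
open MeasureTheory Set Filter Topology

namespace Vale.Agent.P354B

open Vale.Agent.P354E

/-- the curve r = rb, parametrised by proper length as s ↦ (a (-s), b s) -/
structure Gam (rb : ℝ) (S : Fld) (D : Set P2) (a a1 a2 b b1 b2 : ℝ → ℝ) : Prop where
  ha : ∀ s, HasDerivAt a (a1 s) s ∧ HasDerivAt a1 (a2 s) s ∧ 0 < a1 s
  hb : ∀ s, HasDerivAt b (b1 s) s ∧ HasDerivAt b1 (b2 s) s ∧ 0 < b1 s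
  ca : Continuous a2
  cb : Continuous b2
  mem : ∀ s, (a (-s), b s) ∈ D
  pos : ∀ s, 0 ≤ a (-s) + b s
  rad : ∀ s, S.r (a (-s), b s) = rb
  nrm : ∀ s, S.O (a (-s), b s) * a1 (-s) * b1 s = 1
  tan : ∀ s, a1 (-s) * S.n (a (-s), b s) = b1 s * S.l (a (-s), b s)
  zero : a 0 = b 0
  cover : ∀ q : P2, 0 ≤ q.1 + q.2 → (∃ s, a (-s) ≤ q.1 ∧ b s ≤ q.2) ∨ (q ∈ D ∧ rb ≤ S.r q)
  ta : Tendsto a atTop atTop
  tb : Tendsto b atTop atTop

variable {M rb l0 l1 b0 η V c C ε F e : ℝ} {S : Fld} {D : Set P2} {a a1 a2 b b1 b2 : ℝ → ℝ}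

lemma Gam.sw (g : Gam rb S D a a1 a2 b b1 b2) :
    Gam rb S.sw (Prod.swap ⁻¹' D) b b1 b2 a a1 a2 where
  ha := g.hb
  hb := g.ha
  ca := g.cb
  cb := g.ca
  mem s := by have := g.mem (-s); rwa [neg_neg] at this
  pos s := by have := g.pos (-s); rw [neg_neg] at this; linarith
  rad s := by have := g.rad (-s); rwa [neg_neg] at this
  nrm s := by
    have := g.nrm (-s)
    rw [neg_neg] at this
    rw [sw_O, mul_right_comm]; exact this
  tan s := by have := g.tan (-s); rw [neg_neg] at this; exact this.symm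
  zero := g.zero.symm
  cover q hq := by
    rcases g.cover q.swap (by simp only [Prod.fst_swap, Prod.snd_swap]; linarith) with
      ⟨s, h1, h2⟩ | h1
    · exact Or.inl ⟨-s, by rw [neg_neg]; exact h2, h1⟩
    · exact Or.inr h1
  ta := g.tb
  tb := g.ta

lemma Ctx.r_chain (h : Ctx M rb l0 l1 b0 η V c C ε F e S D) {α β : ℝ → ℝ} {α' β' x : ℝ}
    (ha : HasDerivAt α α' x) (hb : HasDerivAt β β' x) (hx : (α x, β x) ∈ D) :
    HasDerivAt (fun s => S.r (α s, β s)) (S.n (α x, β x) * α' + S.l (α x, β x) * β') x :=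
  chain h.dom.isOpen h.sol.cont.n h.sol.cont.l (fun q hq => (h.sol.sol q hq).r_u)
    (fun q hq => (h.sol.sol q hq).r_v) ha hb hx

lemma Ctx.smooth_tau (h : Ctx M rb l0 l1 b0 η V c C ε F e S D) :
    ∃ τ : ℝ → ℝ, ContDiff ℝ ∞ τ ∧ ∀ x, 0 < τ x ∧ ln x (τ x) ∈ D ∧ S.r (ln x (τ x)) = rb ∧
      ∀ t, 0 ≤ t → t ≤ τ x → ln x t ∈ D ∧ rb ≤ S.r (ln x t) := by
  choose τ h1 h2 h3 h4 h5 using h.exists_tau
  refine ⟨τ, contDiff_iff_contDiffAt.2 fun x => ?_, fun x => ⟨h1 x, h2 x, h3 x, h4 x⟩⟩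
  have cl : ContDiff ℝ ∞ (fun z : ℝ × ℝ => ln z.1 z.2) := by unfold ln; fun_prop
  have hs := h.sign (h2 x) (by have := h1 x; simp only [ln]; linarith) (h3 x)
  refine impl (F := fun z => S.r (ln z.1 z.2)) (d := S.n (ln x (τ x)) * 1 + S.l (ln x (τ x)) * 1)
    ?_ ?_ (by linarith [hs.1, hs.2]) ?_
  · exact ContDiffAt.comp (x, τ x) (g := S.r) (f := fun z : ℝ × ℝ => ln z.1 z.2)
      (h.smooth.r.contDiffAt (h.dom.isOpen.mem_nhds (h2 x))) cl.contDiffAt
  · exact h.r_chain (α := fun t => t - x) (β := fun t => t + x)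
      ((hasDerivAt_id' _).sub_const x) ((hasDerivAt_id' _).add_const x) (h2 x)
  · have e1 : ∀ᶠ z : ℝ × ℝ in 𝓝 (x, τ x), ln z.1 z.2 ∈ D :=
      cl.continuous.continuousAt.eventually (h.dom.isOpen.mem_nhds (h2 x))
    have e2 : ∀ᶠ z : ℝ × ℝ in 𝓝 (x, τ x), 0 < z.2 :=
      continuous_snd.continuousAt.eventually (lt_mem_nhds (h1 x))
    filter_upwards [e1, e2] with z g1 g2 g3
    exact h5 z.1 z.2 g2.le g1 (g3.trans (h3 x))

lemma Ctx.ON (h : Ctx M rb l0 l1 b0 η V c C ε F e S D) {q : P2} (hq : q ∈ D)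
    (ht : 0 ≤ q.1 + q.2) (hV : V ≤ q.2) (hr : S.r q = rb) {A B : ℝ} (hB : 0 < B)
    (hAB : S.n q * A = S.l q * B) : 4 / 5 * l1 * B ≤ √(S.O q * A * B) := by
  have h1 := h.ln_ge hq ht hr.ge (hr ▸ h.num.rbM)
  have h2 := (h.R.r2 q hq ht hV hr.ge).2.2.1
  have h3 := (h.R.r1 q hq ht hV).1
  have h4 := O_pos S q
  have h5 := h.num.l10
  refine Real.le_sqrt_of_sq_le ?_
  refine le_of_mul_le_mul_right ?_ (show 0 < S.n q ^ 2 by positivity [h3.ne])
  have e1 : S.O q * A * B * S.n q ^ 2 = S.O q * B ^ 2 * (S.l q * S.n q) := by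
    linear_combination (S.O q * B * S.n q) * hAB
  have e2 : (4 / 5 * -S.n q) ^ 2 ≤ S.O q ^ 2 := pow_le_pow_left₀ (by linarith) h2 2
  rw [e1]
  calc (4 / 5 * l1 * B) ^ 2 * S.n q ^ 2 = (l1 * B) ^ 2 * (4 / 5 * -S.n q) ^ 2 := by ring
    _ ≤ (l1 * B) ^ 2 * S.O q ^ 2 := mul_le_mul_of_nonneg_left e2 (by positivity)
    _ = S.O q * B ^ 2 * (l1 ^ 2 * S.O q) := by ring
    _ ≤ _ := mul_le_mul_of_nonneg_left h1 (by positivity)

lemma tend_top {σ g g' : ℝ → ℝ} (hσ : Continuous σ) (hg : ∀ x, HasDerivAt g (g' x) x)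
    (hle : ∀ x, V ≤ x → g' x ≤ σ x) (ht : Tendsto g atTop atTop) :
    Tendsto (fun x => ∫ y in (0 : ℝ)..x, σ y) atTop atTop := by
  refine tendsto_atTop_mono' _ ?_
    (tendsto_atTop_add_const_right _ ((∫ y in (0 : ℝ)..V, σ y) - g V) ht)
  filter_upwards [eventually_ge_atTop V] with x hx
  have := le_of_deriv_nonneg (f := fun x => (∫ y in (0 : ℝ)..x, σ y) - g x)
    (f' := fun x => σ x - g' x) hx
    (fun y _ => (hσ.integral_hasStrictDerivAt 0 y).hasDerivAt.sub (hg y))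
    (fun y hy => sub_nonneg.2 (hle y hy.1))
  linarith

lemma tend_bot {σ g g' : ℝ → ℝ} (hσ : Continuous σ) (hg : ∀ x, HasDerivAt g (g' x) x)
    (hle : ∀ x, x ≤ V → g' x ≤ σ x) (ht : Tendsto g atBot atBot) :
    Tendsto (fun x => ∫ y in (0 : ℝ)..x, σ y) atBot atBot := by
  refine tendsto_atBot_mono' _ ?_
    (tendsto_atBot_add_const_right _ ((∫ y in (0 : ℝ)..V, σ y) - g V) ht)
  filter_upwards [eventually_le_atBot V] with x hx
  have := le_of_deriv_nonneg (f := fun x => (∫ y in (0 : ℝ)..x, σ y) - g x)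
    (f' := fun x => σ x - g' x) hx
    (fun y _ => (hσ.integral_hasStrictDerivAt 0 y).hasDerivAt.sub (hg y))
    (fun y hy => sub_nonneg.2 (hle y hy.2))
  linarith

lemma Ctx.tau_deriv (h : Ctx M rb l0 l1 b0 η V c C ε F e S D) {τ : ℝ → ℝ}
    (sm : ContDiff ℝ ∞ τ) (hτ : ∀ x, 0 < τ x ∧ ln x (τ x) ∈ D ∧ S.r (ln x (τ x)) = rb) (x : ℝ) :
    S.n (ln x (τ x)) * (1 - deriv τ x) = S.l (ln x (τ x)) * (1 + deriv τ x) ∧
      0 < 1 - deriv τ x ∧ 0 < 1 + deriv τ x := by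
  have d : HasDerivAt τ (deriv τ x) x := (sm.differentiable (by simp) x).hasDerivAt
  have h1 := h.r_chain (α := fun x => τ x - x) (β := fun x => τ x + x)
    (d.sub (hasDerivAt_id' x)) (d.add (hasDerivAt_id' x)) (hτ x).2.1
  have h2 : (fun s => S.r (τ s - s, τ s + s)) = fun _ => rb := funext fun s => (hτ s).2.2
  rw [h2] at h1
  have h3 := h1.unique (hasDerivAt_const x rb)
  have hs := h.sign (hτ x).2.1 (by have := (hτ x).1; simp only [ln]; linarith) (hτ x).2.2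
  simp only [ln] at hs ⊢
  refine ⟨by linarith, ?_, ?_⟩
  · by_contra hc
    nlinarith [hs.1, hs.2]
  · by_contra hc
    nlinarith [hs.1, hs.2]

lemma Ctx.exists_arc (h : Ctx M rb l0 l1 b0 η V c C ε F e S D) {τ : ℝ → ℝ}
    (sm : ContDiff ℝ ∞ τ) (hτ : ∀ x, 0 < τ x ∧ ln x (τ x) ∈ D ∧ S.r (ln x (τ x)) = rb) :
    ∃ X : ℝ → ℝ, ContDiff ℝ ∞ X ∧ (∀ s, HasDerivAt X
      (√(S.O (ln (X s) (τ (X s))) * (1 - deriv τ (X s)) * (1 + deriv τ (X s))))⁻¹ s) ∧ X 0 = 0 ∧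
      Tendsto X atTop atTop ∧ Tendsto X atBot atBot ∧ Function.Surjective X := by
  have hd := h.tau_deriv sm hτ
  have d : ∀ x, HasDerivAt τ (deriv τ x) x := fun x => (sm.differentiable (by simp) x).hasDerivAt
  have sd : ContDiff ℝ ∞ (deriv τ) := (contDiff_infty_iff_deriv.1 sm).2
  have pp : ∀ x, 0 < S.O (ln x (τ x)) * (1 - deriv τ x) * (1 + deriv τ x) := fun x =>
    mul_pos (mul_pos (O_pos _ _) (hd x).2.1) (hd x).2.2
  have cl : ContDiff ℝ ∞ (fun x => ln x (τ x)) := by unfold ln; fun_prop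
  have cw : ContDiff ℝ ∞ (fun x => S.w (ln x (τ x))) :=
    h.smooth.w.comp_contDiff cl fun x => (hτ x).2.1
  have cσ : ContDiff ℝ ∞
      (fun x => √(S.O (ln x (τ x)) * (1 - deriv τ x) * (1 + deriv τ x))) :=
    ((cw.exp.mul (contDiff_const.sub sd)).mul (contDiff_const.add sd)).sqrt fun x => (pp x).ne'
  have tt : ∀ x, 0 ≤ (ln x (τ x)).1 + (ln x (τ x)).2 := fun x => by
    have := (hτ x).1; simp only [ln]; linarith
  have l1p := h.num.l10
  refine arc cσ (fun x => Real.sqrt_pos.2 (pp x)) ?_ ?_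
  · refine tend_top (V := V) (g := fun x => 4 / 5 * l1 * (x + τ x))
      (g' := fun x => 4 / 5 * l1 * (1 + deriv τ x)) cσ.continuous
      (fun x => ((hasDerivAt_id' x).add (d x)).const_mul _) (fun x hx => ?_) ?_
    · exact h.ON (hτ x).2.1 (tt x) (by have := (hτ x).1; simp only [ln]; linarith) (hτ x).2.2
        (hd x).2.2 (hd x).1
    · exact Tendsto.const_mul_atTop (by positivity)
        (tendsto_atTop_mono (fun x => by have := (hτ x).1; simp only [id]; linarith) tendsto_id)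
  · refine tend_bot (V := -V) (g := fun x => 4 / 5 * l1 * (x - τ x))
      (g' := fun x => 4 / 5 * l1 * (1 - deriv τ x)) cσ.continuous
      (fun x => ((hasDerivAt_id' x).sub (d x)).const_mul _) (fun x hx => ?_) ?_
    · have := h.sw.ON (q := (ln x (τ x)).swap) (hτ x).2.1
        (by have := tt x; simp only [Prod.fst_swap, Prod.snd_swap]; linarith)
        (by have := (hτ x).1; simp only [ln, Prod.snd_swap]; linarith) (hτ x).2.2
        (hd x).2.1 (hd x).1.symm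
      rwa [sw_O, mul_right_comm (S.O _)] at this
    · exact Tendsto.const_mul_atBot (by positivity)
        (tendsto_atBot_mono (fun x => by have := (hτ x).1; simp only [id]; linarith) tendsto_id)

lemma smooth_triple {a : ℝ → ℝ} (ha : ContDiff ℝ ∞ a) :
    (∀ s, HasDerivAt (deriv a) (deriv (deriv a) s) s) ∧ Continuous (deriv (deriv a)) := by
  have h1 := (contDiff_infty_iff_deriv.1 ha).2
  exact ⟨fun s => (h1.differentiable (by simp) s).hasDerivAt,
    (contDiff_infty_iff_deriv.1 h1).2.continuous⟩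

theorem Ctx.exists_gam (h : Ctx M rb l0 l1 b0 η V c C ε F e S D) :
    ∃ a a1 a2 b b1 b2, Gam rb S D a a1 a2 b b1 b2 := by
  obtain ⟨τ, sm, hτ⟩ := h.smooth_tau
  have hτ' : ∀ x, 0 < τ x ∧ ln x (τ x) ∈ D ∧ S.r (ln x (τ x)) = rb := fun x =>
    ⟨(hτ x).1, (hτ x).2.1, (hτ x).2.2.1⟩
  obtain ⟨X, sX, dX, X0, t1, t2, sur⟩ := h.exists_arc sm hτ'
  have hd := h.tau_deriv sm hτ'
  have d : ∀ x, HasDerivAt τ (deriv τ x) x := fun x => (sm.differentiable (by simp) x).hasDerivAt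
  have pp : ∀ x, 0 < S.O (ln x (τ x)) * (1 - deriv τ x) * (1 + deriv τ x) := fun x =>
    mul_pos (mul_pos (O_pos _ _) (hd x).2.1) (hd x).2.2
  obtain ⟨k, hk⟩ : ∃ k : ℝ → ℝ, k = fun x =>
    (√(S.O (ln x (τ x)) * (1 - deriv τ x) * (1 + deriv τ x)))⁻¹ := ⟨_, rfl⟩
  have dX' : ∀ s, HasDerivAt X (k (X s)) s := fun s => hk ▸ dX s
  have kp : ∀ x, 0 < k x := fun x => hk ▸ inv_pos.2 (Real.sqrt_pos.2 (pp x))
  have k2 : ∀ x, S.O (ln x (τ x)) * ((1 - deriv τ x) * k x) * ((1 + deriv τ x) * k x) = 1 := by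
    intro x
    have e1 : k x ^ 2 = (S.O (ln x (τ x)) * (1 - deriv τ x) * (1 + deriv τ x))⁻¹ := by
      rw [hk, inv_pow, Real.sq_sqrt (pp x).le]
    have e2 := mul_inv_cancel₀ (pp x).ne'
    rw [← e1] at e2
    linear_combination e2
  obtain ⟨a, ha⟩ : ∃ a : ℝ → ℝ, a = fun s => τ (X (-s)) - X (-s) := ⟨_, rfl⟩
  obtain ⟨b, hb⟩ : ∃ b : ℝ → ℝ, b = fun s => τ (X s) + X s := ⟨_, rfl⟩
  have sa : ContDiff ℝ ∞ a := by rw [ha]; fun_prop
  have sb : ContDiff ℝ ∞ b := by rw [hb]; fun_prop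
  have da : ∀ s, HasDerivAt a ((1 - deriv τ (X (-s))) * k (X (-s))) s := fun s => by
    have h1 : HasDerivAt (fun s => X (-s)) (k (X (-s)) * -1) s :=
      HasDerivAt.comp s (h₂ := X) (dX' (-s)) (hasDerivAt_neg s)
    have h2 := (HasDerivAt.comp s (h₂ := τ) (d (X (-s))) h1).sub h1
    rw [ha]
    exact h2.congr_deriv (by ring)
  have db : ∀ s, HasDerivAt b ((1 + deriv τ (X s)) * k (X s)) s := fun s => by
    have h2 := (HasDerivAt.comp s (h₂ := τ) (d (X s)) (dX' s)).add (dX' s)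
    rw [hb]
    exact h2.congr_deriv (by ring)
  have pt : ∀ s, (a (-s), b s) = ln (X s) (τ (X s)) := fun s => by
    simp only [ha, hb, neg_neg, ln]
  refine ⟨a, deriv a, deriv (deriv a), b, deriv b, deriv (deriv b), fun s => ⟨?_, ?_, ?_⟩,
    fun s => ⟨?_, ?_, ?_⟩, (smooth_triple sa).2, (smooth_triple sb).2, fun s => ?_, fun s => ?_,
    fun s => ?_, fun s => ?_, fun s => ?_, ?_, fun q hq => ?_, ?_, ?_⟩
  · exact (da s).differentiableAt.hasDerivAt
  · exact (smooth_triple sa).1 s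
  · rw [(da s).deriv]; exact mul_pos (hd _).2.1 (kp _)
  · exact (db s).differentiableAt.hasDerivAt
  · exact (smooth_triple sb).1 s
  · rw [(db s).deriv]; exact mul_pos (hd _).2.2 (kp _)
  · rw [pt]; exact (hτ _).2.1
  · have := (hτ (X s)).1
    simp only [ha, hb, neg_neg]; linarith
  · rw [pt]; exact (hτ _).2.2.1
  · rw [pt, (da _).deriv, (db _).deriv, neg_neg]; exact k2 _
  · rw [pt, (da _).deriv, (db _).deriv, neg_neg]
    linear_combination k (X s) * (hd (X s)).1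
  · simp only [ha, hb, neg_zero, X0]; ring
  · obtain ⟨s, hs⟩ := sur ((q.2 - q.1) / 2)
    have e : q = ln (X s) ((q.1 + q.2) / 2) := by
      rw [hs]; simp only [ln]; ext <;> simp only <;> ring
    rcases le_total ((q.1 + q.2) / 2) (τ (X s)) with h1 | h1
    · right
      have := (hτ (X s)).2.2.2 _ (by linarith) h1
      rwa [← e] at this
    · left
      refine ⟨s, ?_, ?_⟩ <;> simp only [ha, hb, neg_neg] <;> linarith
  · refine tendsto_atTop_mono (f := fun s => -X (-s)) (fun s => ?_)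
      (tendsto_neg_atBot_atTop.comp (t2.comp tendsto_neg_atTop_atBot))
    have := (hτ (X (-s))).1
    simp only [ha]; linarith
  · refine tendsto_atTop_mono (fun s => ?_) t1
    have := (hτ (X s)).1
    simp only [hb]; linarith

end Vale.Agent.P354B
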