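import Vale.Agent.P354B.Str2

open scoped ContDiff
open MeasureTheory Set Filter Topology

namespace Vale.Agent.P354B

open Vale.Agent.P354E

variable {M rb l0 l1 b0 η V c C ε F e : ℝ} {S : Fld} {D : Set P2} {a a1 a2 b b1 b2 : ℝ → ℝ}

lemma Gam.ma (g : Gam rb S D a a1 a2 b b1 b2) : StrictMono a :=
  smono (fun s => (g.ha s).1) fun s => (g.ha s).2.2

lemma Gam.mb (g : Gam rb S D a a1 a2 b b1 b2) : StrictMono b := g.sw.ma

lemma Gam.conta (g : Gam rb S D a a1 a2 b b1 b2) : Continuous a :=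
  continuous_iff_continuousAt.2 fun s => (g.ha s).1.continuousAt

lemma Gam.contb (g : Gam rb S D a a1 a2 b b1 b2) : Continuous b := g.sw.conta

lemma Gam.conta1 (g : Gam rb S D a a1 a2 b b1 b2) : Continuous a1 :=
  continuous_iff_continuousAt.2 fun s => (g.ha s).2.1.continuousAt

lemma Gam.contb1 (g : Gam rb S D a a1 a2 b b1 b2) : Continuous b1 := g.sw.conta1

lemma Gam.pos' (g : Gam rb S D a a1 a2 b b1 b2) {u v : ℝ} (h : 0 ≤ u + v) : 0 ≤ a u + b v := by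
  have h1 := g.pos v
  have h2 : a (-v) ≤ a u := g.ma.monotone (by linarith)
  linarith

lemma Gam.dom (g : Gam rb S D a a1 a2 b b1 b2) (hD : IsDom D) :
    IsDom {q : P2 | (a q.1, b q.2) ∈ D} where
  isOpen := by
    have := g.conta
    have := g.contb
    exact hD.isOpen.preimage (f := fun q : P2 => ((a q.1, b q.2) : P2)) (by fun_prop)
  diag x := g.mem x
  tri p hp q hq := hD.tri _ hp ⟨g.ma.monotone hq.1, g.mb.monotone hq.2.1, g.pos' hq.2.2⟩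

lemma Gam.lift (g : Gam rb S D a a1 a2 b b1 b2) {q : P2} {s : ℝ} (h1 : a (-s) ≤ q.1)
    (h2 : b s ≤ q.2) : ∃ u v, 0 ≤ u + v ∧ q = (a u, b v) := by
  obtain ⟨u, h3, h4⟩ := lift_ge g.conta g.ta h1
  obtain ⟨v, h5, h6⟩ := lift_ge g.contb g.tb h2
  exact ⟨u, v, by linarith, by rw [h4, h6]⟩

lemma Ctx.a0 (h : Ctx M rb l0 l1 b0 η V c C ε F e S D) (g : Gam rb S D a a1 a2 b b1 b2) :
    0 ≤ a 0 ∧ a 0 < V := by
  have h1 := g.pos 0
  have h2 := g.mem 0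
  have h3 := g.rad 0
  rw [neg_zero] at h1 h2 h3
  refine ⟨by linarith [g.zero], ?_⟩
  by_contra hc
  push Not at hc
  have := h.past h2 h1 h3.ge (V, V) ⟨hc, g.zero ▸ hc, by have := h.V1; simp only; linarith⟩
  linarith [h.core.2.1]

lemma Ctx.lam (h : Ctx M rb l0 l1 b0 η V c C ε F e S D) (g : Gam rb S D a a1 a2 b b1 b2) (s : ℝ) :
    l1 ≤ -(b1 s * S.l (a (-s), b s)) ∧ -(b1 s * S.l (a (-s), b s)) ≤ l0 := by
  have h1 := h.ln_ge (g.mem s) (g.pos s) (g.rad s).ge ((g.rad s).symm ▸ h.num.rbM)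
  have h2 := h.ln_le (g.mem s) (g.pos s) (g.rad s)
  have h3 := (h.sign (g.mem s) (g.pos s) (g.rad s)).1
  have h4 := O_pos S (a (-s), b s)
  have h5 : 0 < -(b1 s * S.l (a (-s), b s)) := neg_pos.2 (mul_neg_of_pos_of_neg (g.hb s).2.2 h3)
  have e : (-(b1 s * S.l (a (-s), b s))) ^ 2 * S.O (a (-s), b s) =
      S.l (a (-s), b s) * S.n (a (-s), b s) := by
    linear_combination (S.l (a (-s), b s) * S.n (a (-s), b s)) * g.nrm s -
      (b1 s * S.l (a (-s), b s) * S.O (a (-s), b s)) * g.tan s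
  rw [← e] at h1 h2
  exact ⟨(pow_le_pow_iff_left₀ h.num.l10.le h5.le two_ne_zero).1 (le_of_mul_le_mul_right h1 h4),
    (pow_le_pow_iff_left₀ h5.le h.num.l00.le two_ne_zero).1 (le_of_mul_le_mul_right h2 h4)⟩

lemma slope_data {T : Fld} (hs : IsSol e T D) (hd : IsDom D) (hw : ∀ x, T.w (-x, x) = 0)
    (hn : ∀ x, T.n (-x, x) = T.l (-x, x)) (x : ℝ) :
    T.wv (-x, x) = T.wu (-x, x) ∧ G1 e T (-x, x) ≤ T.l (-x, x) * T.wu (-x, x) := by
  have d1 := chain hd.isOpen hs.cont.wu hs.cont.wv (fun q hq => (hs.sol q hq).w_u)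
    (fun q hq => (hs.sol q hq).w_v) (hasDerivAt_neg x) (hasDerivAt_id' x) (hd.diag x)
  have e1 : (fun s => T.w (-s, s)) = fun _ => 0 := funext hw
  rw [e1] at d1
  have f1 := d1.unique (hasDerivAt_const x 0)
  have d2 := chain hd.isOpen (contG1 hs)
    ((hs.cont.l.mul hs.cont.wv).sub (hs.cont.r.mul (hs.cont.pv.pow 2)))
    (fun q hq => (hs.sol q hq).l_u)
    (fun q hq => (hs.sol q hq).l_v) (hasDerivAt_neg x) (hasDerivAt_id' x) (hd.diag x)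
  have d3 := chain hd.isOpen
    ((hs.cont.n.mul hs.cont.wu).sub (hs.cont.r.mul (hs.cont.pu.pow 2))) (contG1 hs)
    (fun q hq => (hs.sol q hq).n_u)
    (fun q hq => (hs.sol q hq).n_v) (hasDerivAt_neg x) (hasDerivAt_id' x) (hd.diag x)
  have e2 : (fun s => T.n (-s, s)) = fun s => T.l (-s, s) := funext hn
  rw [e2] at d3
  have f2 := d2.unique d3
  simp only [Pi.sub_apply, Pi.mul_apply, Pi.pow_apply] at f2
  have f3 : T.wv (-x, x) = T.wu (-x, x) := by linarith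
  rw [hn x, f3] at f2
  have p := (hs.sol _ (hd.diag x)).pos
  have p1 := mul_nonneg p.le (sq_nonneg (T.pu (-x, x)))
  have p2 := mul_nonneg p.le (sq_nonneg (T.pv (-x, x)))
  exact ⟨f3, by linarith⟩

lemma Ctx.gdata (h : Ctx M rb l0 l1 b0 η V c C ε F e S D) (g : Gam rb S D a a1 a2 b b1 b2)
    {T : Fld} (hT : T = S.rep a a1 a2 b b1 b2) (x : ℝ) :
    T.r (-x, x) = rb ∧ T.w (-x, x) = 0 ∧ -l0 ≤ T.l (-x, x) ∧ T.l (-x, x) < 0 ∧
      T.n (-x, x) = T.l (-x, x) ∧ T.wu (-x, x) ≤ -b0 ∧ T.wv (-x, x) ≤ -b0 := by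
  have hs : IsSol e T {q : P2 | (a q.1, b q.2) ∈ D} := hT ▸ h.sol.rep g.ha g.ca g.hb g.cb
  have hO : ∀ x, T.O (-x, x) = 1 := fun x => by
    rw [hT, rep_O S a a1 a2 b b1 b2 _ (g.ha _).2.2 (g.hb _).2.2]; exact g.nrm x
  have hw : ∀ x, T.w (-x, x) = 0 := fun x => Real.exp_eq_one_iff _ |>.1 (hO x)
  have hn : ∀ x, T.n (-x, x) = T.l (-x, x) := fun x => hT ▸ g.tan x
  have hr : T.r (-x, x) = rb := hT ▸ g.rad x
  have hl : T.l (-x, x) = b1 x * S.l (a (-x), b x) := hT ▸ rfl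
  have hm : mass e T (-x, x) = mass e S (a (-x), b x) := by
    rw [hT, rep_mass e S a a1 a2 b b1 b2 _ (g.ha _).2.2 (g.hb _).2.2]
  obtain ⟨s1, s2⟩ := slope_data hs (g.dom h.dom) hw hn x
  obtain ⟨m1, m2⟩ := h.lam g x
  rw [← hl] at m1 m2
  have r0 := h.num.rb0
  have p1 := h.num.l10
  have p2 := h.num.b00
  have k1 := h.num.blue _ (h.massb (g.mem x) (g.pos x) (g.rad x).ge)
  have k2 : l0 * b0 ≤ G1 e T (-x, x) := by
    rw [G1_eq' e T _ (hr ▸ r0.ne'), hO, hr, hm, div_mul_eq_mul_div, le_div_iff₀ (by positivity)]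
    linarith
  have k3 : T.wu (-x, x) ≤ -b0 := by
    by_contra hc
    push Not at hc
    nlinarith
  exact ⟨hr, hw x, by linarith, by linarith, hn x, k3, s1 ▸ k3⟩

/-- the conclusion of the blue shift estimate in the original coordinates -/
def Blu (rb b0 : ℝ) (S : Fld) (D : Set P2) (a a1 b b1 : ℝ → ℝ) : Prop :=
  ∀ u v, 0 ≤ u + v → (a u, b v) ∈ D → rb / 2 ≤ S.r (a u, b v) ∧ S.r (a u, b v) ≤ rb ∧
    S.l (a u, b v) < 0 ∧ S.n (a u, b v) < 0 ∧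
    S.O (a u, b v) * a1 u * b1 v ≤ Real.exp (1 - b0 / 2 * (u + v)) ∧
    ∫ y in (-u)..v, |S.pv (a u, b y)| * b1 y ≤ 1 ∧ ∫ y in (-v)..u, |S.pu (a y, b v)| * a1 y ≤ 1

lemma Blu.sw (h : Blu rb b0 S D a a1 b b1) : Blu rb b0 S.sw (Prod.swap ⁻¹' D) b b1 a a1 := by
  intro u v huv hD
  obtain ⟨h1, h2, h3, h4, h5, h6, h7⟩ := h v u (by linarith) hD
  refine ⟨h1, h2, h4, h3, ?_, h7, h6⟩
  rw [sw_O, mul_right_comm, add_comm u v]; exact h5

lemma Gam.blu (g : Gam rb S D a a1 a2 b b1 b2) {T : Fld} (hT : T = S.rep a a1 a2 b b1 b2)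
    (hb : ∀ q ∈ {q : P2 | (a q.1, b q.2) ∈ D}, 0 ≤ q.1 + q.2 → rb / 2 ≤ T.r q ∧ T.r q ≤ rb ∧
      T.l q < 0 ∧ T.n q < 0 ∧ T.w q ≤ 1 - b0 / 2 * (q.1 + q.2) ∧
      ∫ y in (-q.1)..q.2, |T.pv (q.1, y)| ≤ 1 ∧ ∫ y in (-q.2)..q.1, |T.pu (y, q.2)| ≤ 1) :
    Blu rb b0 S D a a1 b b1 := by
  intro u v huv hD
  obtain ⟨h1, h2, h3, h4, h5, h6, h7⟩ := hb (u, v) hD huv
  subst hT
  refine ⟨h1, h2, neg_of_mul_neg_right h3 (g.hb v).2.2.le, neg_of_mul_neg_right h4 (g.ha u).2.2.le,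
    ?_, ?_, ?_⟩
  · rw [← rep_O S a a1 a2 b b1 b2 (u, v) (g.ha _).2.2 (g.hb _).2.2]
    exact Real.exp_le_exp.2 h5
  · refine le_of_eq_of_le ?_ h6
    congr 1; ext y
    simp only [Fld.rep, abs_mul, abs_of_pos (g.hb y).2.2]; ring
  · refine le_of_eq_of_le ?_ h7
    congr 1; ext y
    simp only [Fld.rep, abs_mul, abs_of_pos (g.ha y).2.2]; ring

end Vale.Agent.P354B
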