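import Vale.Agent.P354B.Str3

open scoped ContDiff
open MeasureTheory Set Filter Topology

namespace Vale.Agent.P354B

open Vale.Agent.P354E

variable {M rb l0 l1 b0 η V c C ε F e : ℝ} {S : Fld} {D : Set P2} {a a1 a2 b b1 b2 : ℝ → ℝ}

lemma Ctx.C0 (h : Ctx M rb l0 l1 b0 η V c C ε F e S D) : 0 < C := by
  have := h.core.2.2 (V, V) (self_mem_Tri (by have := h.V1; simp only; linarith))
  linarith [this.2.2.2.1, this.2.2.2.2.1, h.c0]

lemma Ctx.core_b (h : Ctx M rb l0 l1 b0 η V c C ε F e S D) (g : Gam rb S D a a1 a2 b b1 b2)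
    {s : ℝ} (h1 : a (-s) ≤ V) (h2 : b s ≤ V) : l1 / C ≤ b1 s ∧ b1 s ≤ l0 / c := by
  obtain ⟨m1, m2⟩ := h.lam g s
  obtain ⟨-, k1, -, -, -, k2, -⟩ := h.core.2.2 (a (-s), b s) ⟨h1, h2, g.pos s⟩
  have k3 := (k2 (g.rad s).le).1
  have k4 := (abs_le.1 k1).1
  have p := (g.hb s).2.2
  rw [div_le_iff₀ h.C0, le_div_iff₀ h.c0]
  constructor <;> nlinarith

lemma Ctx.core_a (h : Ctx M rb l0 l1 b0 η V c C ε F e S D) (g : Gam rb S D a a1 a2 b b1 b2)
    {s : ℝ} (h1 : a s ≤ V) (h2 : b (-s) ≤ V) : l1 / C ≤ a1 s ∧ a1 s ≤ l0 / c :=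
  h.sw.core_b g.sw h2 h1

lemma Ctx.right_b (h : Ctx M rb l0 l1 b0 η V c C ε F e S D) (g : Gam rb S D a a1 a2 b b1 b2)
    {s : ℝ} (h2 : V ≤ b s) : 4 / 5 * l1 * b1 s ≤ 1 ∧ 1 ≤ 16 * l0 * b1 s := by
  obtain ⟨m1, m2⟩ := h.lam g s
  have k1 := (h.R.r1 _ (g.mem s) (g.pos s) h2).2
  have k2 := (h.R.r2 _ (g.mem s) (g.pos s) h2 (g.rad s).ge).2.2.1
  have p := (g.hb s).2.2
  have q := O_pos S (a (-s), b s)
  have e : -S.n (a (-s), b s) = -(b1 s * S.l (a (-s), b s)) * b1 s * S.O (a (-s), b s) := by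
    linear_combination S.n (a (-s), b s) * g.nrm s - (b1 s * S.O (a (-s), b s)) * g.tan s
  rw [e] at k1 k2
  have k3 : 1 ≤ 16 * (-(b1 s * S.l (a (-s), b s)) * b1 s) :=
    le_of_mul_le_mul_right (by linarith) q
  have k4 : 4 / 5 * (-(b1 s * S.l (a (-s), b s)) * b1 s) ≤ 1 :=
    le_of_mul_le_mul_right (by linarith) q
  have k5 := mul_le_mul_of_nonneg_right m1 p.le
  have k6 := mul_le_mul_of_nonneg_right m2 p.le
  constructor <;> linarith

lemma Ctx.exists_sR (h : Ctx M rb l0 l1 b0 η V c C ε F e S D) (g : Gam rb S D a a1 a2 b b1 b2) :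
    ∃ sR, 0 ≤ sR ∧ b sR = V ∧ sR ≤ C / l1 * V := by
  obtain ⟨a0, a0'⟩ := h.a0 g
  obtain ⟨sR, h1, h2⟩ := lift_ge g.contb g.tb (s0 := 0) (u := V) (by linarith [g.zero])
  refine ⟨sR, h1, h2, ?_⟩
  have k := le_of_deriv_nonneg (f := fun s => b s - l1 / C * s) (f' := fun s => b1 s - l1 / C * 1)
    h1 (fun s _ => (g.hb s).1.sub ((hasDerivAt_id' s).const_mul _)) (fun s hs => by
      have := (h.core_b g (s := s)
        ((g.ma.monotone (by linarith [hs.1] : -s ≤ 0)).trans a0'.le)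
        (h2 ▸ g.mb.monotone hs.2)).1
      linarith)
  have p1 := h.num.l10
  have p2 := h.C0
  simp only [h2, mul_zero, sub_zero, ← g.zero] at k
  have k2 : l1 / C * sR ≤ V := by linarith
  rw [div_mul_eq_mul_div, div_le_iff₀ p2] at k2
  rw [div_mul_eq_mul_div, le_div_iff₀ p1]
  linarith

/-- the flux density on the curve -/
noncomputable def fl (S : Fld) (a a1 b b1 : ℝ → ℝ) (s : ℝ) : ℝ :=
  (1 + s ^ 2) * ((a1 (-s) * S.pu (a (-s), b s)) ^ 2 + (b1 s * S.pv (a (-s), b s)) ^ 2)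

lemma fl_nonneg (s : ℝ) : 0 ≤ fl S a a1 b b1 s := by unfold fl; positivity

lemma Gam.comp (g : Gam rb S D a a1 a2 b b1 b2) {f : P2 → ℝ} (hf : ContinuousOn f D) :
    Continuous fun s => f (a (-s), b s) := by
  have := g.conta
  have := g.contb
  exact hf.comp_continuous (f := fun s => ((a (-s), b s) : P2)) (by fun_prop) g.mem

lemma Ctx.fl_cont (h : Ctx M rb l0 l1 b0 η V c C ε F e S D) (g : Gam rb S D a a1 a2 b b1 b2) :
    Continuous (fl S a a1 b b1) := by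
  have h1 := g.comp h.sol.cont.pu
  have h2 := g.comp h.sol.cont.pv
  have := g.conta1
  have := g.contb1
  unfold fl
  fun_prop

noncomputable def K4 (l0 l1 V c C : ℝ) : ℝ :=
  C / l1 * V * ((1 + (C / l1 * V) ^ 2) * (2 * (l0 / c) ^ 2))

noncomputable def K3 (rb l0 l1 C : ℝ) : ℝ :=
  (1 + (C / l1 + 16 * l0) ^ 2) * ((5 / 4 / l1 + l0) / rb ^ 2)

lemma Ctx.flux_core (h : Ctx M rb l0 l1 b0 η V c C ε F e S D) (g : Gam rb S D a a1 a2 b b1 b2)
    {sR : ℝ} (h1 : 0 ≤ sR) (h2 : b sR = V) (h3 : sR ≤ C / l1 * V) :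
    ∫ s in (0 : ℝ)..sR, fl S a a1 b b1 s ≤ K4 l0 l1 V c C * ε ^ 2 := by
  have a0 := (h.a0 g).2
  have k : ∀ s ∈ Icc 0 sR, fl S a a1 b b1 s ≤
      (1 + (C / l1 * V) ^ 2) * (2 * (l0 / c) ^ 2) * ε ^ 2 := by
    intro s hs
    have m1 : a (-s) ≤ V := (g.ma.monotone (by linarith [hs.1] : -s ≤ 0)).trans a0.le
    have m2 : b s ≤ V := h2 ▸ g.mb.monotone hs.2
    have k1 := (h.core_b g m1 m2).2
    have k2 := (h.core_a g m1 (by rwa [neg_neg])).2
    obtain ⟨-, -, -, -, -, -, -, -, -, -, -, k3, k4⟩ := h.core.2.2 (a (-s), b s) ⟨m1, m2, g.pos s⟩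
    have k5 : (a1 (-s) * S.pu (a (-s), b s)) ^ 2 ≤ (l0 / c) ^ 2 * ε ^ 2 := by
      rw [mul_pow]
      exact mul_le_mul (pow_le_pow_left₀ (g.ha _).2.2.le k2 2) (sq_le_sq' (abs_le.1 k3).1
        (abs_le.1 k3).2) (sq_nonneg _) (sq_nonneg _)
    have k6 : (b1 s * S.pv (a (-s), b s)) ^ 2 ≤ (l0 / c) ^ 2 * ε ^ 2 := by
      rw [mul_pow]
      exact mul_le_mul (pow_le_pow_left₀ (g.hb _).2.2.le k1 2) (sq_le_sq' (abs_le.1 k4).1
        (abs_le.1 k4).2) (sq_nonneg _) (sq_nonneg _)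
    have k7 : s ^ 2 ≤ (C / l1 * V) ^ 2 := pow_le_pow_left₀ hs.1 (hs.2.trans h3) 2
    unfold fl
    rw [mul_assoc]
    exact mul_le_mul (by linarith) (by linarith) (by positivity) (by positivity)
  have k' := intervalIntegral.integral_mono_on h1 ((h.fl_cont g).intervalIntegrable _ _)
    (intervalIntegrable_const (μ := volume)) k
  rw [intervalIntegral.integral_const, smul_eq_mul, sub_zero] at k'
  refine k'.trans ?_
  unfold K4
  rw [mul_assoc (C / l1 * V)]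
  exact mul_le_mul_of_nonneg_right h3 (by positivity)

lemma flux_pt {rb l0 l1 A B n x y : ℝ} (r0 : 0 < rb) (l10 : 0 < l1) (l00 : 0 < l0) (hA : 0 < A)
    (hB : 0 < B) (hn : n < 0) (h1 : 4 / 5 * l1 * B ≤ 1) (h2 : -(A * n) ≤ l0) :
    (A * x) ^ 2 + (B * y) ^ 2 ≤
      (5 / 4 / l1 + l0) / rb ^ 2 * ((rb * y) ^ 2 * B + (rb * x) ^ 2 / -n * - -A) := by
  have hn' : 0 < -n := neg_pos.2 hn
  have k1 : B ≤ 5 / 4 / l1 + l0 := by
    have : B ≤ 5 / 4 / l1 := by rw [le_div_iff₀ l10]; linarith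
    linarith
  have k2 : -(A * n) ≤ 5 / 4 / l1 + l0 := by
    have : 0 ≤ 5 / 4 / l1 := by positivity
    linarith
  have e : (5 / 4 / l1 + l0) / rb ^ 2 * ((rb * y) ^ 2 * B + (rb * x) ^ 2 / -n * - -A) =
      (5 / 4 / l1 + l0) * (y ^ 2 * B) + (5 / 4 / l1 + l0) * (x ^ 2 / -n * A) := by
    have := hn.ne
    field_simp
  have e2 : (A * x) ^ 2 = -(A * n) * (x ^ 2 / -n * A) := by
    have := hn.ne
    field_simp
  rw [e, e2]
  have k3 := mul_le_mul_of_nonneg_right k1 (show 0 ≤ y ^ 2 * B by positivity)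
  have k4 := mul_le_mul_of_nonneg_right k2 (show 0 ≤ x ^ 2 / -n * A by positivity)
  nlinarith

lemma Ctx.s_le (h : Ctx M rb l0 l1 b0 η V c C ε F e S D) (g : Gam rb S D a a1 a2 b b1 b2)
    {sR s : ℝ} (h1 : 0 ≤ sR) (h2 : b sR = V) (h3 : sR ≤ C / l1 * V) (hs : sR ≤ s) :
    1 + s ^ 2 ≤ (1 + (C / l1 + 16 * l0) ^ 2) * b s ^ 2 := by
  have k := le_of_deriv_nonneg (f := fun s => 16 * l0 * b s - s)
    (f' := fun s => 16 * l0 * b1 s - 1)
    hs (fun s _ => ((g.hb s).1.const_mul _).sub (hasDerivAt_id' s)) (fun s hs => by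
      have := (h.right_b g (s := s) (h2 ▸ g.mb.monotone hs.1)).2
      linarith)
  have m : V ≤ b s := h2 ▸ g.mb.monotone hs
  have p1 := h.num.l10
  have p2 := h.C0
  have p3 := h.num.l00
  have p4 := h.V1
  simp only [h2] at k
  have k1 : C / l1 * V ≤ C / l1 * b s := mul_le_mul_of_nonneg_left m (by positivity)
  have k2 : 0 ≤ 16 * l0 * V := by positivity
  have k3 : s ≤ (C / l1 + 16 * l0) * b s := by linarith
  have k4 := pow_le_pow_left₀ (h1.trans hs) k3 2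
  have k5 : 1 ≤ b s ^ 2 := one_le_pow₀ (p4.trans m)
  rw [mul_pow] at k4
  linarith

lemma Ctx.flux_right (h : Ctx M rb l0 l1 b0 η V c C ε F e S D) (g : Gam rb S D a a1 a2 b b1 b2)
    {sR R : ℝ} (h1 : 0 ≤ sR) (h2 : b sR = V) (h3 : sR ≤ C / l1 * V) (hR : sR ≤ R) :
    ∫ s in sR..R, fl S a a1 b b1 s ≤ K3 rb l0 l1 C * F := by
  have ca1 := g.conta1
  have cb1 := g.contb1
  have cb := g.contb
  have hn : ∀ s, S.n (a (-s), b s) < 0 := fun s => (h.sign (g.mem s) (g.pos s) (g.rad s)).2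
  have k := h.R.r3 (fun s => a (-s)) b (fun s => -a1 (-s)) b1 sR R hR (by fun_prop)
    cb1.continuousOn fun s hs => ⟨(HasDerivAt.comp s (h₂ := a) (g.ha (-s)).1
      (hasDerivAt_neg s)).congr_deriv (by ring), (g.hb s).1, neg_neg_of_pos (g.ha _).2.2,
      (g.hb s).2.2, g.mem s, g.pos s, h2 ▸ g.mb.monotone hs.1, g.rad s⟩
  have p1 := h.num.l10
  have p2 := h.C0
  have p3 := h.num.l00
  have p4 := h.num.rb0
  refine le_trans ?_ (mul_le_mul_of_nonneg_left k (show 0 ≤ K3 rb l0 l1 C by unfold K3; positivity))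
  rw [← intervalIntegral.integral_const_mul]
  refine intervalIntegral.integral_mono_on hR ((h.fl_cont g).intervalIntegrable _ _)
    (Continuous.intervalIntegrable ?_ _ _) fun s hs => ?_
  · have c1 := g.comp h.sol.cont.pu
    have c2 := g.comp h.sol.cont.pv
    have c3 := g.comp h.sol.cont.r
    have c4 := g.comp h.sol.cont.n
    have c5 : Continuous fun s => (S.r (a (-s), b s) * S.pu (a (-s), b s)) ^ 2 /
      -S.n (a (-s), b s) := ((c3.mul c1).pow 2).div c4.neg fun s => (neg_pos.2 (hn s)).ne'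
    fun_prop
  · have k1 := h.s_le g h1 h2 h3 hs.1
    have k2 := flux_pt (x := S.pu (a (-s), b s)) (y := S.pv (a (-s), b s)) p4 p1 p3
      (g.ha (-s)).2.2 (g.hb s).2.2 (hn s) (h.right_b g (h2 ▸ g.mb.monotone hs.1)).1
      (by rw [g.tan s]; exact (h.lam g s).2)
    unfold fl K3
    rw [g.rad s, mul_mul_mul_comm]
    exact mul_le_mul k1 k2 (by positivity) (by positivity)

lemma Ctx.flux_half (h : Ctx M rb l0 l1 b0 η V c C ε F e S D) (g : Gam rb S D a a1 a2 b b1 b2)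
    (R : ℝ) : ∫ s in (0 : ℝ)..R, fl S a a1 b b1 s ≤
      K4 l0 l1 V c C * ε ^ 2 + K3 rb l0 l1 C * F := by
  obtain ⟨sR, h1, h2, h3⟩ := h.exists_sR g
  have i := fun x y => (h.fl_cont g).intervalIntegrable (μ := volume) x y
  have k1 := h.flux_core g h1 h2 h3
  have k2 := h.flux_right g h1 h2 h3 (le_max_right R sR)
  have k3 := intervalIntegral.integral_add_adjacent_intervals (i 0 sR) (i sR (max R sR))
  have k4 := intervalIntegral.integral_add_adjacent_intervals (i 0 R) (i R (max R sR))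
  have k5 : 0 ≤ ∫ s in R..max R sR, fl S a a1 b b1 s :=
    intervalIntegral.integral_nonneg (le_max_left _ _) fun s _ => fl_nonneg s
  linarith

lemma Ctx.flux (h : Ctx M rb l0 l1 b0 η V c C ε F e S D) (g : Gam rb S D a a1 a2 b b1 b2)
    (x y : ℝ) : ∫ s in x..y, fl S a a1 b b1 s ≤
      2 * (K4 l0 l1 V c C * ε ^ 2 + K3 rb l0 l1 C * F) := by
  have i := fun x y => (h.fl_cont g).intervalIntegrable (μ := volume) x y
  have k1 := h.flux_half g y
  have k2 := h.sw.flux_half g.sw (-x)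
  have k3 := intervalIntegral.integral_add_adjacent_intervals (i x 0) (i 0 y)
  have e : ∀ s, fl S.sw b b1 a a1 s = fl S a a1 b b1 (-s) := fun s => by
    simp only [fl, Fld.sw, neg_neg, Prod.swap_prod_mk]; ring
  simp only [e, intervalIntegral.integral_comp_neg, neg_neg, neg_zero] at k2
  linarith

lemma exists_blu (rb b0 l0 : ℝ) (h0 : 0 < rb) (h1 : 0 < b0) (h2 : 0 < l0)
    (h3 : 100 * l0 ≤ rb * b0) : ∃ ε0, 0 < ε0 ∧ ∀ {M l1 η V c C ε F e : ℝ} {S : Fld} {D : Set P2}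
      {a a1 a2 b b1 b2 : ℝ → ℝ}, Ctx M rb l0 l1 b0 η V c C ε F e S D →
      Gam rb S D a a1 a2 b b1 b2 → 2 * (K4 l0 l1 V c C * ε ^ 2 + K3 rb l0 l1 C * F) ≤ ε0 →
      Blu rb b0 S D a a1 b b1 := by
  obtain ⟨ε0, p, hb⟩ := blue rb b0 l0 h0 h1 h2 h3
  refine ⟨ε0 ^ 2, by positivity, fun h g hε => g.blu rfl ?_⟩
  exact hb _ _ _ h.num.hE (h.sol.rep g.ha g.ca g.hb g.cb) (g.dom h.dom) (h.gdata g rfl)
    fun x y _ => (h.flux g x y).trans hε

end Vale.Agent.P354B
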