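import Vale.Agent.P354B.Str4

open scoped ContDiff
open MeasureTheory Set Filter Topology

namespace Vale.Agent.P354B

open Vale.Agent.P354E

variable {M rb l0 l1 b0 η V c C ε F e : ℝ} {S : Fld} {D : Set P2} {a a1 a2 b b1 b2 : ℝ → ℝ}

lemma Ctx.r_half (h : Ctx M rb l0 l1 b0 η V c C ε F e S D) (g : Gam rb S D a a1 a2 b b1 b2)
    (B : Blu rb b0 S D a a1 b b1) {q : P2} (hq : q ∈ D) (ht : 0 ≤ q.1 + q.2) :
    rb / 2 ≤ S.r q := by
  rcases g.cover q ht with ⟨s, h1, h2⟩ | h1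
  · obtain ⟨u, v, h3, rfl⟩ := g.lift h1 h2
    exact (B u v h3 hq).1
  · linarith [h1.2, h.num.rb0]

lemma Ctx.glob (h : Ctx M rb l0 l1 b0 η V c C ε F e S D) (g : Gam rb S D a a1 a2 b b1 b2)
    (B : Blu rb b0 S D a a1 b b1) (q : P2) (ht : 0 ≤ q.1 + q.2) : q ∈ D :=
  h.ext q (rb / 2) ht (half_pos h.num.rb0) fun _ hq => h.r_half g B hq.1 hq.2.2.2

lemma Ctx.a_low (h : Ctx M rb l0 l1 b0 η V c C ε F e S D) (g : Gam rb S D a a1 a2 b b1 b2)
    (s : ℝ) : -max V (6 * M) ≤ a s := by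
  by_contra hc
  push Not at hc
  have h1 := g.mem (-s)
  have h2 := g.pos (-s)
  have h3 := g.rad (-s)
  rw [neg_neg] at h1 h2 h3
  have m1 := le_max_left V (6 * M)
  have m2 := le_max_right V (6 * M)
  have M0 := h.num.M0
  have rbM := h.num.rbM
  have seg := segV (self_mem_Tri (p := (a s, b (-s))) h2)
  have f1 := (h.R.far (-a s) (by linarith)).1
  rw [neg_neg] at f1
  have k := barrier_ge (f := fun y => S.r (a s, y)) (f' := fun y => S.l (a s, y))
    (a := -a s) (b := b (-s)) (fun y hy => (h.sol.sol _ (h.dom.tri _ h1 (seg y hy))).r_v)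
    (fun y hy e1 => by
      have hT := seg y (Ico_subset_Icc_self hy)
      have hD := h.dom.tri _ h1 hT
      have r3 : 3 * M ≤ S.r (a s, y) := by rw [e1]; linarith
      have k1 := h.num.far _ _ (h.massb hD hT.2.2 (by linarith)) r3
      have k2 := m1_eq' e S _ (h.sol.sol _ hD).pos.ne'
      have k3 : 4 * S.l (a s, y) * S.n (a s, y) / S.O (a s, y) < 0 := by linarith
      have k4 := (h.R.r1 _ hD hT.2.2 (by have := hy.1; simp only; linarith)).1
      rw [div_neg_iff] at k3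
      have k5 := O_pos S (a s, y)
      rcases k3 with k3 | k3
      · linarith [k3.2]
      · by_contra hl
        push Not at hl
        nlinarith [k3.1, mul_nonneg_of_nonpos_of_nonpos hl k4.le])
    (b (-s)) ⟨by linarith, le_rfl⟩
  linarith

lemma Ctx.r_ge_M (h : Ctx M rb l0 l1 b0 η V c C ε F e S D)
    (G : ∀ q : P2, 0 ≤ q.1 + q.2 → q ∈ D) {u : ℝ} (hu : ∀ v, 0 ≤ u + v → rb ≤ S.r (u, v))
    {v : ℝ} (hv : V ≤ v) (ht : 0 ≤ u + v) : M ≤ S.r (u, v) := by
  by_contra hc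
  push Not at hc
  have p1 := h.num.l10
  have p2 := h.num.rbM
  have key : ∀ y, v ≤ y → S.r (u, y) ≤ M → S.l (u, y) ≤ -(4 / 5 * l1 ^ 2) := by
    intro y hy hr
    have t : 0 ≤ u + y := by linarith
    have k1 := h.ln_ge (G (u, y) t) t (hu y t) hr
    have k2 := (h.R.r1 _ (G (u, y) t) t (hv.trans hy)).1
    have k3 := (h.R.r2 _ (G (u, y) t) t (hv.trans hy) (hu y t)).2.2.1
    have k4 := mul_le_mul_of_nonneg_left k3 (sq_nonneg l1)
    refine le_of_mul_le_mul_right ?_ (neg_pos.2 k2)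
    linarith
  obtain ⟨T, hT⟩ : ∃ T, T = v + (M - rb + 1) / (4 / 5 * l1 ^ 2) := ⟨_, rfl⟩
  have vT : v ≤ T := by
    have : 0 ≤ (M - rb + 1) / (4 / 5 * l1 ^ 2) := div_nonneg (by linarith) (by positivity)
    linarith
  have dr : ∀ y ∈ Icc v T, HasDerivAt (fun y => S.r (u, y)) (S.l (u, y)) y := fun y hy =>
    (h.sol.sol _ (G (u, y) (by have := hy.1; simp only; linarith))).r_v
  have k1 := barrier_le dr fun y hy e1 => by
    have := key y hy.1 (by rw [e1]; exact hc.le)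
    have : 0 < 4 / 5 * l1 ^ 2 := by positivity
    linarith
  have k2 := le_of_deriv_nonpos (f := fun y => S.r (u, y) + 4 / 5 * l1 ^ 2 * y)
    (f' := fun y => S.l (u, y) + 4 / 5 * l1 ^ 2 * 1) vT
    (fun y hy => (dr y hy).add ((hasDerivAt_id' y).const_mul _)) fun y hy => by
      have := key y hy.1 ((k1 y hy).trans hc.le)
      linarith
  have k3 := hu T (by linarith)
  have e1 : 4 / 5 * l1 ^ 2 * T = 4 / 5 * l1 ^ 2 * v + (M - rb + 1) := by
    rw [hT]; field_simp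
  linarith

lemma Ctx.ext_O (h : Ctx M rb l0 l1 b0 η V c C ε F e S D)
    (G : ∀ q : P2, 0 ≤ q.1 + q.2 → q ∈ D) {ua ub : ℝ}
    (hu : ∀ u, u ≤ ub → ∀ v, 0 ≤ u + v → rb ≤ S.r (u, v)) :
    ∃ va c, 0 < c ∧ ∀ u ∈ Icc ua ub, ∀ v, va ≤ v → c ≤ S.O (u, v) := by
  obtain ⟨va, hva⟩ : ∃ va, va = max V (-ua) := ⟨_, rfl⟩
  have m1 : V ≤ va := hva ▸ le_max_left _ _
  have m2 : -ua ≤ va := hva ▸ le_max_right _ _
  have t : ∀ u ∈ Icc ua ub, ∀ v, va ≤ v → 0 ≤ u + v := fun u hu v hv => by linarith [hu.1]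
  obtain ⟨c', c0, hc⟩ := (isCompact_Icc (a := ua) (b := ub)).exists_forall_le'
    (f := fun u => -S.n (u, va)) (a := 0)
    (contU h.sol.cont.n fun y hy => G _ (t y hy va le_rfl)).neg
    fun y hy => neg_pos.2 (h.R.r1 _ (G _ (t y hy va le_rfl)) (t y hy va le_rfl) m1).1
  refine ⟨va, 4 / 5 * c', by positivity, fun u hu' v hv => ?_⟩
  have k1 := le_of_deriv_nonpos (f := fun y => S.n (u, y)) (f' := fun y => G1 e S (u, y)) hv
    (fun y hy => (h.sol.sol _ (G (u, y) (t u hu' y hy.1))).n_v) fun y hy => by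
      have t1 := t u hu' y hy.1
      have k2 := h.r_ge_M G (hu u hu'.2) (m1.trans hy.1) t1
      have k3 := h.num.red _ _ (h.massb (G (u, y) t1) t1 (hu u hu'.2 y t1)) k2
      rw [G1_eq' e S _ (h.sol.sol _ (G (u, y) t1)).pos.ne']
      exact mul_nonpos_of_nonneg_of_nonpos (div_nonneg (O_pos _ _).le (by positivity))
        (by linarith)
  have t1 := t u hu' v hv
  have k4 := (h.R.r2 _ (G (u, v) t1) t1 (m1.trans hv) (hu u hu'.2 v t1)).2.2.1
  have k5 := hc u hu'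
  linarith

lemma Ctx.pv_int (h : Ctx M rb l0 l1 b0 η V c C ε F e S D) (g : Gam rb S D a a1 a2 b b1 b2)
    (B : Blu rb b0 S D a a1 b b1) {u v v0 : ℝ} (h1 : 0 ≤ u + v0) (h2 : v0 ≤ v) :
    ∫ y in b v0..b v, |S.pv (a u, y)| ≤ 1 := by
  have G := h.glob g B
  have cb := g.contb
  have c1 : ContinuousOn (fun y => |S.pv (a u, y)|) (Icc (b (-u)) (b v)) :=
    (contV h.sol.cont.pv fun y hy => G _ (by
      have := g.pos (-u); rw [neg_neg] at this; have := hy.1; simp only; linarith)).abs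
  have m : b (-u) ≤ b v0 := g.mb.monotone (by linarith)
  have m' : b v0 ≤ b v := g.mb.monotone h2
  have k := (B u v (by linarith) (G _ (g.pos' (by linarith)))).2.2.2.2.2.1
  rw [← chg (g := fun y => |S.pv (a u, y)|) (fun s => (g.hb s).1) g.contb1
    (fun s => (g.hb s).2.2) (by linarith) c1] at k
  refine le_trans ?_ k
  exact intervalIntegral.integral_mono_interval m m' le_rfl
    (Eventually.of_forall fun y => abs_nonneg _) (c1.intervalIntegrable_of_Icc (m.trans m'))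

lemma Ctx.pu_int (h : Ctx M rb l0 l1 b0 η V c C ε F e S D) (g : Gam rb S D a a1 a2 b b1 b2)
    (B : Blu rb b0 S D a a1 b b1) {u v u0 : ℝ} (h1 : 0 ≤ u0 + v) (h2 : u0 ≤ u) :
    ∫ y in a u0..a u, |S.pu (y, b v)| ≤ 1 :=
  h.sw.pv_int g.sw B.sw (by linarith) h2

lemma Ctx.quad (h : Ctx M rb l0 l1 b0 η V c C ε F e S D) (g : Gam rb S D a a1 a2 b b1 b2)
    (B : Blu rb b0 S D a a1 b b1) (s : ℝ) : Quad S (a s) (b (-s)) := by
  have G := h.glob g B
  have c0 : 0 < b0 / 2 := half_pos h.num.b00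
  obtain ⟨f, f1, f2, f3, f4⟩ := inv_fun (fun s => (g.ha s).1) g.conta1 (fun s => (g.ha s).2.2)
    g.ta s c0
  obtain ⟨k, k1, k2, k3, k4⟩ := inv_fun (fun s => (g.hb s).1) g.contb1 (fun s => (g.hb s).2.2)
    g.tb (-s) c0
  refine ⟨g.pos' (by linarith), 1, fun u => Real.exp 1 * f u, k, continuousOn_const.mul f1, k1,
    f2.const_mul _, k2, fun u _ => mul_nonneg (Real.exp_pos _).le (f3 u), fun v _ => k3 v,
    fun u v hu hv => ?_⟩
  obtain ⟨u, hu', rfl⟩ := lift_ge g.conta g.ta hu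
  obtain ⟨v, hv', rfl⟩ := lift_ge g.contb g.tb hv
  have t : 0 ≤ u + v := by linarith
  obtain ⟨-, -, m1, m2, m3, -⟩ := B u v t (G _ (g.pos' t))
  refine ⟨m1, m2, ?_, h.pv_int g B (by linarith) hv', h.pu_int g B (by linarith) hu'⟩
  have p1 := (g.ha u).2.2
  have p2 := (g.hb v).2.2
  have e1 : Real.exp 1 * f (a u) * k (b v) =
      Real.exp (1 - b0 / 2 * (u + v)) / (a1 u * b1 v) := by
    rw [f4, k4, show 1 - b0 / 2 * (u + v) = 1 + -(b0 / 2) * u + -(b0 / 2) * v by ring,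
      Real.exp_add, Real.exp_add]
    field_simp
  simp only
  rw [e1, le_div_iff₀ (by positivity), ← mul_assoc]
  exact m3

lemma Ctx.rs (h : Ctx M rb l0 l1 b0 η V c C ε F e S D) (g : Gam rb S D a a1 a2 b b1 b2)
    (B : Blu rb b0 S D a a1 b b1) : ∃ uH, RS S V uH := by
  have bdd : BddBelow (range a) := ⟨_, by rintro _ ⟨s, rfl⟩; exact h.a_low g s⟩
  have low : ∀ s, sInf (range a) < a s := fun s =>
    lt_of_le_of_lt (csInf_le bdd ⟨s - 1, rfl⟩) (g.ma (by linarith))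
  refine ⟨sInf (range a), (low 0).trans (h.a0 g).2, fun ua ub hub => ?_, fun u0 hu0 => ?_⟩
  · refine h.ext_O (h.glob g B) fun u hu v t => ?_
    rcases g.cover (u, v) t with ⟨s, h1, -⟩ | h1
    · have := low (-s)
      simp only at h1
      linarith
    · exact h1.2
  · obtain ⟨_, ⟨s, rfl⟩, hs⟩ := exists_lt_of_csInf_lt (range_nonempty a) hu0
    obtain ⟨s', -, rfl⟩ := lift_ge g.conta g.ta hs.le
    exact ⟨_, h.quad g B s'⟩

end Vale.Agent.P354B
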