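import Vale.Agent.P354B.Str5

open scoped ContDiff
open MeasureTheory Set Filter Topology

namespace Vale.Agent.P354B

open Vale.Agent.P354E

variable {M rb l0 l1 b0 η V c C ε F e : ℝ} {S : Fld} {D : Set P2} {a a1 a2 b b1 b2 : ℝ → ℝ}

lemma int_exp_le {k x y : ℝ} (hk : 0 < k) :
    ∫ s in x..y, Real.exp (-k * s) ≤ Real.exp (-k * x) / k := by
  have d : ∀ s ∈ uIcc x y, HasDerivAt (fun s => -(Real.exp (-k * s) / k)) (Real.exp (-k * s)) s := by
    intro s _
    have := (((hasDerivAt_id' s).const_mul (-k)).exp.div_const k).neg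
    refine this.congr_deriv ?_
    have := hk.ne'
    field_simp
  rw [intervalIntegral.integral_eq_sub_of_hasDerivAt d (Continuous.intervalIntegrable
    (by fun_prop) _ _)]
  have : 0 < Real.exp (-k * y) / k := by positivity
  linarith

noncomputable def K5 (l1 b0 V C : ℝ) : ℝ :=
  C / l1 * Real.exp 1 / (b0 / 2) * Real.exp (b0 / 2 * (4 / 5 * l1) * V)

lemma Ctx.O_int (h : Ctx M rb l0 l1 b0 η V c C ε F e S D) (g : Gam rb S D a a1 a2 b b1 b2)
    (B : Blu rb b0 S D a a1 b b1) {v v' : ℝ} (hv : V ≤ v) (hv' : v ≤ v') :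
    ∫ y in v..v', S.O (V, y) ≤ K5 l1 b0 V C * Real.exp (-(b0 / 2 * (4 / 5 * l1)) * v) := by
  have G := h.glob g B
  have a0 := (h.a0 g).2
  have c0 : 0 < b0 / 2 := half_pos h.num.b00
  have p1 := h.num.l10
  have p2 := h.C0
  have p3 := h.V1
  obtain ⟨sR, s1, s2, -⟩ := h.exists_sR g
  obtain ⟨u, u1, u2⟩ := lift_ge g.conta g.ta a0.le
  obtain ⟨y, y1, rfl⟩ := lift_ge g.contb g.tb (s2.le.trans hv)
  obtain ⟨y', y2, rfl⟩ := lift_ge g.contb g.tb hv'
  have k1 := (h.core_a g u2.le ((g.mb.monotone (by linarith : -u ≤ 0)).trans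
    (g.zero ▸ a0.le))).1
  have cO : ContinuousOn (fun x => S.O (V, x)) (Icc (b y) (b y')) :=
    contV (contO h.sol) fun x hx => G _ (by have := hx.1; simp only; linarith)
  rw [chg (fun s => (g.hb s).1) g.contb1 (fun s => (g.hb s).2.2) y2 cO]
  have k2 : ∀ s ∈ Icc y y', S.O (V, b s) * b1 s ≤
      C / l1 * Real.exp 1 * Real.exp (-(b0 / 2) * s) := by
    intro s hs
    have t : 0 ≤ u + s := by linarith [hs.1]
    have m := (B u s t (G _ (g.pos' t))).2.2.2.2.1
    rw [u2] at m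
    have m2 : Real.exp (1 - b0 / 2 * (u + s)) ≤ Real.exp 1 * Real.exp (-(b0 / 2) * s) := by
      rw [← Real.exp_add]
      exact Real.exp_le_exp.2 (by nlinarith)
    have m3 : 0 ≤ S.O (V, b s) * b1 s := (mul_pos (O_pos _ _) (g.hb s).2.2).le
    have m4 := mul_le_mul_of_nonneg_left k1 m3
    have m5 : S.O (V, b s) * b1 s * (l1 / C) ≤ Real.exp 1 * Real.exp (-(b0 / 2) * s) := by
      linarith
    have e1 : S.O (V, b s) * b1 s = C / l1 * (S.O (V, b s) * b1 s * (l1 / C)) := by field_simp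
    rw [e1, mul_assoc (C / l1)]
    exact mul_le_mul_of_nonneg_left m5 (by positivity)
  have cb := g.contb
  have k3 := intervalIntegral.integral_mono_on (μ := volume) y2
    (((cO.comp cb.continuousOn fun s hs => ⟨g.mb.monotone hs.1, g.mb.monotone hs.2⟩).mul
      g.contb1.continuousOn).intervalIntegrable_of_Icc y2)
    (Continuous.intervalIntegrable (by fun_prop) _ _) k2
  rw [intervalIntegral.integral_const_mul] at k3
  have k4 := le_of_deriv_nonneg (f := fun s => s - 4 / 5 * l1 * b s)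
    (f' := fun s => 1 - 4 / 5 * l1 * b1 s)
    y1 (fun s _ => (hasDerivAt_id' s).sub ((g.hb s).1.const_mul _)) (fun s hs => by
      have := (h.right_b g (s := s) (s2 ▸ g.mb.monotone hs.1)).1
      linarith)
  simp only [s2] at k4
  have k5 : Real.exp (-(b0 / 2) * y) ≤ Real.exp (b0 / 2 * (4 / 5 * l1) * V) *
      Real.exp (-(b0 / 2 * (4 / 5 * l1)) * b y) := by
    rw [← Real.exp_add]
    exact Real.exp_le_exp.2 (by nlinarith)
  refine k3.trans ((mul_le_mul_of_nonneg_left ((int_exp_le c0).trans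
    (div_le_div_of_nonneg_right k5 c0.le)) (by positivity)).trans (le_of_eq ?_))
  unfold K5; ring

lemma Ctx.n_int (h : Ctx M rb l0 l1 b0 η V c C ε F e S D) (G : ∀ q : P2, 0 ≤ q.1 + q.2 → q ∈ D)
    {u v : ℝ} (hv : V ≤ v) (t : 0 ≤ u + v) : ∫ y in (-v)..u, -S.n (y, v) ≤ 3 * v := by
  rw [intervalIntegral.integral_neg, ftcU h.sol.cont.n (fun q hq => (h.sol.sol q hq).r_u)
    (by linarith) fun y hy => G _ (by have := hy.1; simp only; linarith)]
  have h1 := (h.R.far v hv).2.1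
  have h2 := (h.sol.sol _ (G (u, v) t)).pos
  linarith

lemma Ctx.r_le (h : Ctx M rb l0 l1 b0 η V c C ε F e S D) (G : ∀ q : P2, 0 ≤ q.1 + q.2 → q ∈ D)
    {u v : ℝ} (hv : V ≤ v) (t : 0 ≤ u + v) : S.r (u, v) ≤ 3 * v := by
  have t' : ∀ y ∈ Icc (-v) u, 0 ≤ y + v := fun y hy => by linarith [hy.1]
  have h1 := le_of_deriv_nonpos (f := fun y => S.r (y, v)) (f' := fun y => S.n (y, v))
    (by linarith : -v ≤ u) (fun y hy => (h.sol.sol _ (G (y, v) (t' y hy))).r_u)
    fun y hy => (h.R.r1 _ (G (y, v) (t' y hy)) (t' y hy) hv).1.le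
  exact h1.trans (h.R.far v hv).2.1

lemma Ctx.ze_int1 (h : Ctx M rb l0 l1 b0 η V c C ε F e S D) (G : ∀ q : P2, 0 ≤ q.1 + q.2 → q ∈ D)
    {u v : ℝ} (hv : V ≤ v) (t : 0 ≤ u + v) (hr : rb ≤ S.r (u, v)) :
    ∫ y in (-v)..u, |S.r (y, v) * S.pu (y, v)| ≤ 1 + 3 * v := by
  have t' : ∀ y ∈ Icc (-v) u, 0 ≤ y + v := fun y hy => by linarith [hy.1]
  have sg : ∀ y ∈ Icc (-v) u, (y, v) ∈ D := fun y hy => G (y, v) (t' y hy)
  have hn : ∀ y ∈ Icc (-v) u, 0 < -S.n (y, v) := fun y hy =>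
    neg_pos.2 (h.R.r1 _ (sg y hy) (t' y hy) hv).1
  have uv : -v ≤ u := by linarith
  have c1 := contU (h.sol.cont.r.mul h.sol.cont.pu) sg
  have c2 := (contU h.sol.cont.n sg).neg
  have i1 := ((c1.pow 2).div c2 fun y hy => (hn y hy).ne').intervalIntegrable_of_Icc
    (μ := volume) uv
  have i2 := c2.intervalIntegrable_of_Icc (μ := volume) uv
  have k1 := (h.R.r2 _ (G (u, v) t) t hv hr).2.2.2
  have k2 := h.n_int G hv t
  have k3 := intervalIntegral.integral_mono_on uv (c1.abs.intervalIntegrable_of_Icc uv)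
    (i1.add i2) fun y hy => by
      have p := hn y hy
      show |S.r (y, v) * S.pu (y, v)| ≤
        (S.r (y, v) * S.pu (y, v)) ^ 2 / -S.n (y, v) + -S.n (y, v)
      rw [← sq_abs, div_add' _ _ _ p.ne', le_div_iff₀ p]
      nlinarith [sq_nonneg (|S.r (y, v) * S.pu (y, v)| - -S.n (y, v)),
        mul_nonneg (abs_nonneg (S.r (y, v) * S.pu (y, v))) p.le]
  rw [intervalIntegral.integral_add i1 i2] at k3
  exact k3.trans (add_le_add k1 k2)

lemma Ctx.ze_int (h : Ctx M rb l0 l1 b0 η V c C ε F e S D) (g : Gam rb S D a a1 a2 b b1 b2)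
    (B : Blu rb b0 S D a a1 b b1) {v : ℝ} (hv : V ≤ v) :
    ∫ y in (-v)..V, |S.r (y, v) * S.pu (y, v)| ≤ 1 + 3 * v + rb := by
  have G := h.glob g B
  have a0 := (h.a0 g).2
  obtain ⟨u, u1, u2⟩ := lift_ge g.conta g.ta a0.le
  obtain ⟨y, y1, rfl⟩ := lift_ge g.contb g.tb ((g.zero ▸ a0.le : b 0 ≤ V).trans hv)
  have m1 : -b y ≤ a (-y) := by linarith [g.pos y]
  have m2 : a (-y) ≤ V := (g.ma.monotone (by linarith : -y ≤ 0)).trans a0.le
  have s1 : ∀ x ∈ Icc (-b y) (a (-y)), (x, b y) ∈ D := fun x hx =>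
    G _ (by have := hx.1; simp only; linarith)
  have s2 : ∀ x ∈ Icc (a (-y)) V, (x, b y) ∈ D := fun x hx =>
    G _ (by have := hx.1; simp only; linarith)
  have cz := (h.sol.cont.r.mul h.sol.cont.pu).abs
  have k1 := h.ze_int1 G hv (g.pos y) (g.rad y).ge
  have k2 := h.pu_int g B (u := u) (v := y) (u0 := -y) (by linarith) (by linarith)
  rw [u2] at k2
  have k3 := intervalIntegral.integral_mono_on m2 (intU cz m2 s2)
    ((intU h.sol.cont.pu.abs m2 s2).const_mul rb) fun x hx => by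
      obtain ⟨x', x1, rfl⟩ := lift_ge g.conta g.ta hx.1
      have := (B x' y (by linarith) (s2 _ hx)).2.1
      show |S.r (a x', b y) * S.pu (a x', b y)| ≤ rb * |S.pu (a x', b y)|
      rw [abs_mul, abs_of_pos (h.sol.sol _ (s2 _ hx)).pos]
      exact mul_le_mul_of_nonneg_right this (abs_nonneg _)
  rw [intervalIntegral.integral_const_mul] at k3
  have k4 := intervalIntegral.integral_add_adjacent_intervals (intU cz m1 s1) (intU cz m2 s2)
  have k5 := mul_le_mul_of_nonneg_left k2 h.num.rb0.le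
  simp only [Pi.mul_apply] at k3 k4
  linarith

lemma Ctx.sum_int (h : Ctx M rb l0 l1 b0 η V c C ε F e S D) (g : Gam rb S D a a1 a2 b b1 b2)
    (B : Blu rb b0 S D a a1 b b1) {v : ℝ} (hv : V ≤ v) :
    ∫ y in (-v)..V, (S.O (y, v) + |S.n (y, v)| + |S.r (y, v) * S.pu (y, v)|) ≤ (55 + rb) * v := by
  have G := h.glob g B
  have p := h.V1
  have t' : ∀ y ∈ Icc (-v) V, 0 ≤ y + v := fun y hy => by linarith [hy.1]
  have sg : ∀ y ∈ Icc (-v) V, (y, v) ∈ D := fun y hy => G (y, v) (t' y hy)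
  have uv : -v ≤ V := by linarith
  have i1 := intU ((contO h.sol).add h.sol.cont.n.abs) uv sg
  have i2 := intU (h.sol.cont.r.mul h.sol.cont.pu).abs uv sg
  have k1 := intervalIntegral.integral_mono_on uv i1
    ((intU h.sol.cont.n.neg uv sg).const_mul 17) fun y hy => by
      have := h.R.r1 _ (sg y hy) (t' y hy) hv
      show S.O (y, v) + |S.n (y, v)| ≤ 17 * -S.n (y, v)
      rw [abs_of_neg this.1]
      linarith [this.2]
  rw [intervalIntegral.integral_const_mul] at k1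
  have k2 := h.n_int G hv (by linarith : 0 ≤ V + v)
  have k3 := h.ze_int g B hv
  have k4 := intervalIntegral.integral_add i1 i2
  have k5 := mul_le_mul_of_nonneg_left (p.trans hv) h.num.rb0.le
  simp only [Pi.mul_apply, Pi.add_apply, Pi.neg_apply] at k1 k4
  linarith

lemma Ctx.unif (h : Ctx M rb l0 l1 b0 η V c C ε F e S D) (g : Gam rb S D a a1 a2 b b1 b2)
    (B : Blu rb b0 S D a a1 b b1) :
    Unif S V (min (rb / 2) (b0 / 2 * (4 / 5 * l1))) (max (K5 l1 b0 V C) (55 + rb)) := by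
  have G := h.glob g B
  have p := h.V1
  have p1 := h.num.l10
  have p2 := h.C0
  have p3 := h.num.b00
  have p4 := h.num.rb0
  refine ⟨fun q t => (min_le_left _ _).trans (h.r_half g B (G q t) t), fun v hv => ⟨?_,
    fun v' hv' => (h.O_int g B hv hv').trans ?_, (h.sum_int g B hv).trans ?_, fun u hu => ?_⟩⟩
  · exact (h.L.r1 (v, V) (G (V, v) (by simp only; linarith)) (by simp only; linarith) le_rfl).1
  · refine mul_le_mul (le_max_left _ _) (Real.exp_le_exp.2 ?_) (Real.exp_pos _).le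
      (le_trans (by linarith) (le_max_right _ _))
    exact mul_le_mul_of_nonneg_right (neg_le_neg (min_le_right _ _)) (by linarith)
  · exact mul_le_mul_of_nonneg_right (le_max_right _ _) (by linarith)
  · refine (h.r_le G hv (by linarith [hu.1])).trans ?_
    exact mul_le_mul_of_nonneg_right (le_trans (by linarith) (le_max_right _ _)) (by linarith)

end Vale.Agent.P354B
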