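import Vale.Agent.P354B.Str6

open scoped ContDiff
open MeasureTheory Set Filter Topology

namespace Vale.Agent.P354B

open Vale.Agent.P354E

lemma small_eps {ε0 ε1 η : ℝ} (A B C1 : ℝ) (h0 : 0 < ε0) (h1 : 0 < ε1) (h2 : 0 < η) :
    ∃ ε, 0 < ε ∧ ε ≤ ε0 ∧ ε ≤ η ∧ C1 * ε ≤ η ∧ C1 * ε ^ 2 ≤ 1 ∧
      2 * (A * ε ^ 2 + B * (C1 * ε ^ 2)) ≤ ε1 := by
  have key : ∀ (f : ℝ → ℝ) (k : ℝ), Continuous f → f 0 < k → ∀ᶠ x in 𝓝[>] (0 : ℝ), f x ≤ k :=
    fun f k hf hk => ((hf.continuousAt.eventually (gt_mem_nhds hk)).mono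
      fun _ h => h.le).filter_mono nhdsWithin_le_nhds
  have e0 : ∀ᶠ x in 𝓝[>] (0 : ℝ), 0 < x := self_mem_nhdsWithin
  have e1 := key (fun x => x) ε0 (by fun_prop) h0
  have e2 := key (fun x => x) η (by fun_prop) h2
  have e3 := key (fun x => C1 * x) η (by fun_prop) (by simpa using h2)
  have e4 := key (fun x => C1 * x ^ 2) 1 (by fun_prop) (by simp)
  have e5 := key (fun x => 2 * (A * x ^ 2 + B * (C1 * x ^ 2))) ε1 (by fun_prop)
    (by simpa using h1)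
  exact (e0.and (e1.and (e2.and (e3.and (e4.and e5))))).exists

theorem bStruct (hO : BOmega) (hR : BRight) : BStruct := by
  intro M e0 h0 h1
  obtain ⟨rb, l0, l1, b0, η, r1, r2, η0, hN⟩ := exists_num h0 h1
  refine ⟨rb, r1, r2, fun V c C V1 c0 => ?_⟩
  have N0 := hN (e0 ^ 2) (by simpa using η0.le)
  obtain ⟨ε0, C1, ε00, hR'⟩ := hR M e0 rb V c C h0 h1 r1 r2 V1 c0
  obtain ⟨ε1, ε10, hB⟩ := exists_blu rb b0 l0 N0.rb0 N0.b00 N0.l00 N0.small
  obtain ⟨ε, p0, p1, p2, p3, p4, p5⟩ :=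
    small_eps (K4 l0 l1 V c C) (K3 rb l0 l1 C) C1 ε00 ε10 η0
  refine ⟨ε, min (rb / 2) (b0 / 2 * (4 / 5 * l1)), max (K5 l1 b0 V C) (55 + rb), p0, ?_,
    fun e S D he hM hS hC hF hF' => ?_⟩
  · have := N0.rb0
    have := N0.b00
    have := N0.l10
    positivity
  have side : ∀ S D, IsSol e S D → IsDom D → Core M rb V c C ε e S D → Far M rb V ε e S →
      Side M rb V η (C1 * ε ^ 2) e S D := by
    intro S D k1 k2 k3 k4
    obtain ⟨m1, m2, m3⟩ := hR' ε e S D p0 p1 he k1 k2 k3 k4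
    refine ⟨fun x hx => ⟨(k4 x hx).1, (k4 x hx).2.1, (k4 x hx).2.2.1⟩, m1, fun q hq t hV hr => ?_,
      m3⟩
    obtain ⟨n1, n2, n3, n4⟩ := m2 q hq t hV hr
    exact ⟨n1, n2.trans p3, n3, n4.trans p4⟩
  have h : Ctx M rb l0 l1 b0 η V c C ε (C1 * ε ^ 2) e S D :=
    { num := hN _ (he.trans p2)
      V1 := V1
      c0 := c0
      εη := p2
      sol := hM.sol
      dom := hM.dom
      smooth := hS
      ext := fun p c' t hc' hq => by
        obtain ⟨C', hC'⟩ := hO e S D V p c' hM.sol hM.dom (by linarith) hC.1 (fun x hx => by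
          have a1 := (hF x hx).2.2.2.1
          have a2 : 1 / 8 ≤ -S.l (x, -x) := (hF' x hx).2.2.2.1
          constructor <;> linarith) hc' hq
        exact hM.ext p c' C' t hc' fun q hq' => ⟨hq q hq', hC' q hq'⟩
      core := hC
      R := side S D hM.sol hM.dom hC hF
      L := side _ _ hM.sol.sw hM.dom.sw hC.sw hF' }
  obtain ⟨a, a1, a2, b, b1, b2, g⟩ := h.exists_gam
  have B := hB h g p5
  exact ⟨h.glob g B, h.unif g B, h.rs g B⟩

end Vale.Agent.P354B
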