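import Vale.Agent.P354E.Sol

open MeasureTheory Set Filter Topology

namespace Vale.Agent.P354B

open Vale.Agent.P354E

lemma mem_Tri {p q : P2} : q ∈ Tri p ↔ q.1 ≤ p.1 ∧ q.2 ≤ p.2 ∧ 0 ≤ q.1 + q.2 := Iff.rfl

lemma Tri_mono {p q : P2} (h1 : q.1 ≤ p.1) (h2 : q.2 ≤ p.2) : Tri q ⊆ Tri p :=
  fun _ hx => ⟨hx.1.trans h1, hx.2.1.trans h2, hx.2.2⟩

lemma Tri_sub {p q : P2} (h : q ∈ Tri p) : Tri q ⊆ Tri p := Tri_mono h.1 h.2.1

lemma self_mem_Tri {p : P2} (h : 0 ≤ p.1 + p.2) : p ∈ Tri p := ⟨le_rfl, le_rfl, h⟩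

lemma isClosed_Tri (p : P2) : IsClosed (Tri p) := by
  have h1 : IsClosed {q : P2 | q.1 ≤ p.1} := isClosed_le continuous_fst continuous_const
  have h2 : IsClosed {q : P2 | q.2 ≤ p.2} := isClosed_le continuous_snd continuous_const
  have h3 : IsClosed {q : P2 | 0 ≤ q.1 + q.2} :=
    isClosed_le continuous_const (continuous_fst.add continuous_snd)
  exact h1.inter (h2.inter h3)

lemma isCompact_Tri (p : P2) : IsCompact (Tri p) := by
  refine (isCompact_Icc (a := (-p.2, -p.1)) (b := p)).of_isClosed_subset (isClosed_Tri p) ?_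
  rintro q ⟨h1, h2, h3⟩
  exact ⟨⟨by simp only; linarith, by simp only; linarith⟩, ⟨h1, h2⟩⟩

lemma swap_mem_Tri {p q : P2} : q.swap ∈ Tri p.swap ↔ q ∈ Tri p := by
  simp only [mem_Tri, Prod.fst_swap, Prod.snd_swap]
  constructor
  · rintro ⟨h1, h2, h3⟩; exact ⟨h2, h1, by linarith⟩
  · rintro ⟨h1, h2, h3⟩; exact ⟨h2, h1, by linarith⟩

/-- continuity along a segment of constant v -/
lemma contU {f : P2 → ℝ} {T : Set P2} (hf : ContinuousOn f T) {a b v : ℝ}
    (h : ∀ y ∈ Icc a b, (y, v) ∈ T) : ContinuousOn (fun y => f (y, v)) (Icc a b) :=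
  hf.comp (Continuous.prodMk_left v).continuousOn h

/-- continuity along a segment of constant u -/
lemma contV {f : P2 → ℝ} {T : Set P2} (hf : ContinuousOn f T) {a b u : ℝ}
    (h : ∀ y ∈ Icc a b, (u, y) ∈ T) : ContinuousOn (fun y => f (u, y)) (Icc a b) :=
  hf.comp (Continuous.prodMk_right u).continuousOn h

lemma intU {f : P2 → ℝ} {T : Set P2} (hf : ContinuousOn f T) {a b v : ℝ} (hab : a ≤ b)
    (h : ∀ y ∈ Icc a b, (y, v) ∈ T) : IntervalIntegrable (fun y => f (y, v)) volume a b :=
  (contU hf h).intervalIntegrable_of_Icc hab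

lemma intV {f : P2 → ℝ} {T : Set P2} (hf : ContinuousOn f T) {a b u : ℝ} (hab : a ≤ b)
    (h : ∀ y ∈ Icc a b, (u, y) ∈ T) : IntervalIntegrable (fun y => f (u, y)) volume a b :=
  (contV hf h).intervalIntegrable_of_Icc hab

lemma ftcU {f g : P2 → ℝ} {T : Set P2} (hg : ContinuousOn g T) (hd : ∀ q ∈ T, Du f q (g q))
    {a b v : ℝ} (hab : a ≤ b) (h : ∀ y ∈ Icc a b, (y, v) ∈ T) :
    ∫ y in a..b, g (y, v) = f (b, v) - f (a, v) := by
  refine intervalIntegral.integral_eq_sub_of_hasDerivAt (f := fun y => f (y, v)) ?_ (intU hg hab h)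
  intro y hy
  rw [uIcc_of_le hab] at hy
  exact hd _ (h y hy)

lemma ftcV {f g : P2 → ℝ} {T : Set P2} (hg : ContinuousOn g T) (hd : ∀ q ∈ T, Dv f q (g q))
    {a b u : ℝ} (hab : a ≤ b) (h : ∀ y ∈ Icc a b, (u, y) ∈ T) :
    ∫ y in a..b, g (u, y) = f (u, b) - f (u, a) := by
  refine intervalIntegral.integral_eq_sub_of_hasDerivAt (f := fun y => f (u, y)) ?_ (intV hg hab h)
  intro y hy
  rw [uIcc_of_le hab] at hy
  exact hd _ (h y hy)

lemma segU {p q : P2} (hq : q ∈ Tri p) : ∀ y ∈ Icc (-q.2) q.1, (y, q.2) ∈ Tri p :=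
  fun y hy => ⟨hy.2.trans hq.1, hq.2.1, by have := hy.1; simp only; linarith⟩

lemma segV {p q : P2} (hq : q ∈ Tri p) : ∀ y ∈ Icc (-q.1) q.2, (q.1, y) ∈ Tri p :=
  fun y hy => ⟨hq.1, hy.2.trans hq.2.1, by have := hy.1; simp only; linarith⟩

/-- a retraction of the plane onto a triangle -/
noncomputable def ret (a b : ℝ) (q : P2) : P2 :=
  (max (-b) (min q.1 a), max (-(max (-b) (min q.1 a))) (min q.2 b))

lemma ret_cont (a b : ℝ) : Continuous (ret a b) := by
  unfold ret; fun_prop

lemma ret_mem {a b : ℝ} (hab : 0 ≤ a + b) (q : P2) : ret a b q ∈ Tri (a, b) := by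
  refine ⟨?_, ?_, ?_⟩
  · exact max_le (by simp only; linarith) (min_le_right _ _)
  · refine max_le ?_ (min_le_right _ _)
    have := le_max_left (-b) (min q.1 a)
    simp only; linarith
  · have := le_max_left (-(max (-b) (min q.1 a))) (min q.2 b)
    simp only [ret]; linarith

lemma ret_eq {a b : ℝ} {q : P2} (hq : q ∈ Tri (a, b)) : ret a b q = q := by
  obtain ⟨h1, h2, h3⟩ := hq
  simp only at h1 h2
  have e1 : max (-b) (min q.1 a) = q.1 := by
    rw [min_eq_left h1, max_eq_right (by linarith)]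
  ext
  · exact e1
  · simp only [ret]
    rw [e1, min_eq_left h2, max_eq_right (by linarith)]

lemma cont_intU {f : P2 → ℝ} {a b : ℝ} (hab : 0 ≤ a + b) (hf : ContinuousOn f (Tri (a, b))) :
    ContinuousOn (fun v => ∫ y in (-v)..a, f (y, v)) (Icc (-a) b) := by
  have hg : Continuous fun q => f (ret a b q) :=
    hf.comp_continuous (ret_cont a b) (ret_mem hab)
  have h1 : Continuous fun v : ℝ => ∫ y in a..(-v), f (ret a b (y, v)) := by
    refine intervalIntegral.continuous_parametric_intervalIntegral_of_continuous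
      (f := fun v y => f (ret a b (y, v))) ?_ continuous_neg
    exact hg.comp (continuous_snd.prodMk continuous_fst)
  refine h1.neg.continuousOn.congr ?_
  intro v hv
  simp only [Pi.neg_apply]
  rw [← intervalIntegral.integral_symm]
  refine intervalIntegral.integral_congr ?_
  intro y hy
  rw [uIcc_of_le (by have := hv.1; linarith)] at hy
  simp only
  rw [ret_eq ⟨hy.2, hv.2, by have := hy.1; simp only; linarith⟩]

lemma cont_intV {f : P2 → ℝ} {a b : ℝ} (hab : 0 ≤ a + b) (hf : ContinuousOn f (Tri (a, b))) :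
    ContinuousOn (fun u => ∫ y in (-u)..b, f (u, y)) (Icc (-b) a) := by
  have := cont_intU (f := fun q => f q.swap) (a := b) (b := a) (by linarith)
    (hf.comp continuous_swap.continuousOn fun q hq => by
      have := (swap_mem_Tri (p := (b, a)) (q := q)).2 hq
      exact this)
  exact this

lemma slice_int {f : P2 → ℝ} {a b : ℝ} (v : ℝ) :
    ∫ y, (Tri (a, b)).indicator f (y, v) =
      (Icc (-a) b).indicator (fun v => ∫ y in (-v)..a, f (y, v)) v := by
  by_cases hv : v ∈ Icc (-a) b
  · rw [indicator_of_mem hv, intervalIntegral.integral_of_le (by have := hv.1; linarith),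
      ← integral_Icc_eq_integral_Ioc, ← integral_indicator measurableSet_Icc]
    congr 1
    funext y
    by_cases hy : y ∈ Icc (-v) a
    · rw [indicator_of_mem hy, indicator_of_mem]
      exact ⟨hy.2, hv.2, by have := hy.1; simp only; linarith⟩
    · rw [indicator_of_notMem hy, indicator_of_notMem]
      rintro ⟨h1, _, h3⟩
      exact hy ⟨by simp only at h3; linarith, h1⟩
  · rw [indicator_of_notMem hv]
    have : (fun y => (Tri (a, b)).indicator f (y, v)) = fun _ => 0 := by
      funext y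
      rw [indicator_of_notMem]
      rintro ⟨h1, h2, h3⟩
      exact hv ⟨by simp only at h1 h3; linarith, h2⟩
    rw [this, integral_zero]

lemma tri_swap {f : P2 → ℝ} {a b : ℝ} (hab : 0 ≤ a + b) (hf : ContinuousOn f (Tri (a, b))) :
    ∫ v in (-a)..b, ∫ u in (-v)..a, f (u, v) = ∫ u in (-b)..a, ∫ v in (-u)..b, f (u, v) := by
  have hi : Integrable ((Tri (a, b)).indicator f) (volume.prod volume) :=
    (integrable_indicator_iff (isClosed_Tri _).measurableSet).2
      (hf.integrableOn_compact (isCompact_Tri _))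
  have h := integral_integral_swap (f := fun u v => (Tri (a, b)).indicator f (u, v))
    (μ := volume) (ν := volume) hi
  have e1 : ∀ v, ∫ u, (Tri (a, b)).indicator f (u, v) =
      (Icc (-a) b).indicator (fun v => ∫ y in (-v)..a, f (y, v)) v := slice_int
  have e2 : ∀ u, ∫ v, (Tri (a, b)).indicator f (u, v) =
      (Icc (-b) a).indicator (fun u => ∫ y in (-u)..b, f (u, y)) u := by
    intro u
    have := slice_int (f := fun q => f q.swap) (a := b) (b := a) u
    refine Eq.trans ?_ this
    congr 1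
    funext y
    by_cases hy : (u, y) ∈ Tri (a, b)
    · have hy' : (y, u) ∈ Tri (b, a) := (swap_mem_Tri (p := (a, b)) (q := (u, y))).2 hy
      rw [indicator_of_mem hy, indicator_of_mem hy']
      rfl
    · rw [indicator_of_notMem hy, indicator_of_notMem]
      exact fun h => hy ((swap_mem_Tri (p := (a, b)) (q := (u, y))).1 h)
  simp only [e1, e2] at h
  rw [integral_indicator measurableSet_Icc, integral_indicator measurableSet_Icc,
    integral_Icc_eq_integral_Ioc, integral_Icc_eq_integral_Ioc] at h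
  rw [intervalIntegral.integral_of_le (by linarith), intervalIntegral.integral_of_le (by linarith)]
  exact h.symm

lemma diag_cont {f : P2 → ℝ} {a b : ℝ} (hf : ContinuousOn f (Tri (a, b))) :
    ContinuousOn (fun x => f (-x, x)) (Icc (-a) b) :=
  hf.comp (continuous_neg.prodMk continuous_id).continuousOn fun x hx =>
    ⟨by have := hx.1; simp only; linarith, hx.2, by simp⟩

/-- the divergence theorem on a triangle -/
lemma green {P Q Pu Qv : P2 → ℝ} {a b : ℝ} (hab : 0 ≤ a + b)
    (hP : ContinuousOn P (Tri (a, b))) (hQ : ContinuousOn Q (Tri (a, b)))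
    (hPu : ContinuousOn Pu (Tri (a, b))) (hQv : ContinuousOn Qv (Tri (a, b)))
    (dP : ∀ q ∈ Tri (a, b), Du P q (Pu q)) (dQ : ∀ q ∈ Tri (a, b), Dv Q q (Qv q)) :
    (∫ v in (-a)..b, P (a, v)) + ∫ u in (-b)..a, Q (u, b) =
      (∫ x in (-a)..b, (P (-x, x) + Q (-x, x))) +
        ∫ v in (-a)..b, ∫ u in (-v)..a, (Pu (u, v) + Qv (u, v)) := by
  have h1 : -a ≤ b := by linarith
  have h2 : -b ≤ a := by linarith
  have i1 : IntervalIntegrable (fun v => ∫ u in (-v)..a, Pu (u, v)) volume (-a) b :=
    (cont_intU hab hPu).intervalIntegrable_of_Icc h1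
  have i2 : IntervalIntegrable (fun v => ∫ u in (-v)..a, Qv (u, v)) volume (-a) b :=
    (cont_intU hab hQv).intervalIntegrable_of_Icc h1
  have i3 : IntervalIntegrable (fun u => ∫ v in (-u)..b, Qv (u, v)) volume (-b) a :=
    (cont_intV hab hQv).intervalIntegrable_of_Icc h2
  have j1 : IntervalIntegrable (fun x => P (-x, x)) volume (-a) b :=
    (diag_cont hP).intervalIntegrable_of_Icc h1
  have j2 : IntervalIntegrable (fun x => Q (-x, x)) volume (-a) b :=
    (diag_cont hQ).intervalIntegrable_of_Icc h1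
  have e1 : ∫ v in (-a)..b, P (a, v) =
      (∫ x in (-a)..b, P (-x, x)) + ∫ v in (-a)..b, ∫ u in (-v)..a, Pu (u, v) := by
    rw [← intervalIntegral.integral_add j1 i1]
    refine intervalIntegral.integral_congr fun v hv => ?_
    rw [uIcc_of_le h1] at hv
    have hq : (a, v) ∈ Tri (a, b) := ⟨le_rfl, hv.2, by have := hv.1; simp only; linarith⟩
    have := ftcU hPu dP (a := -v) (b := a) (v := v) (by have := hv.1; linarith) (segU hq)
    rw [this]; ring
  have j3 : IntervalIntegrable (fun u => Q (u, -u)) volume (-b) a := by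
    have := (diag_cont hQ).comp (f := fun u : ℝ => -u) (s := Icc (-b) a) continuous_neg.continuousOn
      fun u hu => ⟨by have := hu.2; linarith, by have := hu.1; linarith⟩
    refine (this.congr fun u _ => ?_).intervalIntegrable_of_Icc h2
    simp
  have e2 : ∫ u in (-b)..a, Q (u, b) =
      (∫ u in (-b)..a, Q (u, -u)) + ∫ u in (-b)..a, ∫ v in (-u)..b, Qv (u, v) := by
    rw [← intervalIntegral.integral_add j3 i3]
    refine intervalIntegral.integral_congr fun u hu => ?_
    rw [uIcc_of_le h2] at hu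
    have hq : (u, b) ∈ Tri (a, b) := ⟨hu.2, le_rfl, by have := hu.1; simp only; linarith⟩
    have := ftcV hQv dQ (a := -u) (b := b) (u := u) (by have := hu.1; linarith) (segV hq)
    rw [this]; ring
  have e3 : ∫ u in (-b)..a, Q (u, -u) = ∫ x in (-a)..b, Q (-x, x) := by
    have := intervalIntegral.integral_comp_neg (a := -b) (b := a) (fun x => Q (-x, x))
    simp only [neg_neg] at this
    exact this
  have e4 : ∫ v in (-a)..b, ∫ u in (-v)..a, (Pu (u, v) + Qv (u, v)) =
      (∫ v in (-a)..b, ∫ u in (-v)..a, Pu (u, v)) + ∫ v in (-a)..b, ∫ u in (-v)..a, Qv (u, v) := by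
    rw [← intervalIntegral.integral_add i1 i2]
    refine intervalIntegral.integral_congr fun v hv => ?_
    rw [uIcc_of_le h1] at hv
    have hq : (a, v) ∈ Tri (a, b) := ⟨le_rfl, hv.2, by have := hv.1; simp only; linarith⟩
    have h3 : -v ≤ a := by have := hv.1; linarith
    exact intervalIntegral.integral_add (intU hPu h3 (segU hq)) (intU hQv h3 (segU hq))
  rw [e1, e2, e3, e4, intervalIntegral.integral_add j1 j2, tri_swap hab hQv]
  ring

/-- continuous induction on a triangle -/
lemma boot {h : P2 → ℝ} {p : P2} (hc : ContinuousOn h (Tri p))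
    (h0 : ∀ q ∈ Tri p, q.1 + q.2 = 0 → h q ≤ 0)
    (hs : ∀ q ∈ Tri p, (∀ q' ∈ Tri q, h q' ≤ 0) → h q < 0) : ∀ q ∈ Tri p, h q < 0 := by
  by_contra hcon
  push Not at hcon
  have hK : IsCompact (Tri p ∩ h ⁻¹' Ici 0) :=
    (isCompact_Tri p).of_isClosed_subset
      (hc.preimage_isClosed_of_isClosed (isClosed_Tri p) isClosed_Ici) inter_subset_left
  obtain ⟨q, ⟨hq, hq0⟩, hmin⟩ := hK.exists_isMinOn (f := fun q : P2 => q.1 + q.2)
    (by obtain ⟨q, hq, hq0⟩ := hcon; exact ⟨q, hq, hq0⟩)
    (continuous_fst.add continuous_snd).continuousOn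
  have hlt : ∀ q' ∈ Tri p, q'.1 + q'.2 < q.1 + q.2 → h q' < 0 := by
    intro q' hq' hl
    by_contra hc'
    push Not at hc'
    have := hmin ⟨hq', hc'⟩
    simp only [mem_ofPred_eq] at this
    linarith
  have hqq : h q ≤ 0 := by
    rcases eq_or_lt_of_le hq.2.2 with h1 | h1
    · exact h0 q hq h1.symm
    · have hc2 : ContinuousOn (fun y => h (q.1, y)) (Icc (-q.1) q.2) := contV hc (segV hq)
      have hl : -q.1 < q.2 := by linarith
      have hcl : q.2 ∈ closure (Ico (-q.1) q.2) := by
        rw [closure_Ico hl.ne]; exact ⟨hl.le, le_rfl⟩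
      have := ContinuousWithinAt.closure_le hcl
        ((hc2 q.2 ⟨hl.le, le_rfl⟩).mono Ico_subset_Icc_self) continuousWithinAt_const
        (g := fun _ => (0 : ℝ)) fun y hy =>
          (hlt (q.1, y) (segV hq y (Ico_subset_Icc_self hy)) (by have := hy.2; simp only; linarith)).le
      exact this
  have := hs q hq fun q' hq' => by
    rcases eq_or_lt_of_le (add_le_add hq'.1 hq'.2.1) with h1 | h1
    · have e1 : q'.1 = q.1 := by have := hq'.1; have := hq'.2.1; linarith
      have e2 : q'.2 = q.2 := by linarith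
      rw [Prod.ext e1 e2]; exact hqq
    · exact (hlt q' (Tri_sub hq hq') h1).le
  exact absurd hq0 (not_le.2 this)

/-- a barrier: if the derivative is negative whenever the value is the initial one, the function
stays below the initial value -/
lemma barrier_le {f f' : ℝ → ℝ} {a b : ℝ} (hd : ∀ x ∈ Icc a b, HasDerivAt f (f' x) x)
    (h : ∀ x ∈ Ico a b, f x = f a → f' x < 0) : ∀ x ∈ Icc a b, f x ≤ f a := by
  intro x hx
  exact image_le_of_deriv_right_lt_deriv_boundary (f := f) (f' := f') (B := fun _ => f a)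
    (B' := fun _ => 0) (fun y hy => (hd y hy).continuousAt.continuousWithinAt)
    (fun y hy => (hd y (Ico_subset_Icc_self hy)).hasDerivWithinAt) le_rfl
    (fun y => hasDerivAt_const y _) h hx

lemma barrier_ge {f f' : ℝ → ℝ} {a b : ℝ} (hd : ∀ x ∈ Icc a b, HasDerivAt f (f' x) x)
    (h : ∀ x ∈ Ico a b, f x = f a → 0 < f' x) : ∀ x ∈ Icc a b, f a ≤ f x := by
  intro x hx
  have := barrier_le (f := fun x => -f x) (f' := fun x => -f' x) (fun y hy => (hd y hy).neg)
    (fun y hy e => by have := h y hy (by linarith); linarith) x hx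
  linarith

/-- the chain rule along curves, from continuous derivatives in the two directions -/
lemma chain {f fu fv : P2 → ℝ} {D : Set P2} (hD : IsOpen D) (hu : ContinuousOn fu D)
    (hv : ContinuousOn fv D) (du : ∀ q ∈ D, Du f q (fu q)) (dv : ∀ q ∈ D, Dv f q (fv q))
    {a b : ℝ → ℝ} {a' b' x : ℝ} (ha : HasDerivAt a a' x) (hb : HasDerivAt b b' x)
    (hx : (a x, b x) ∈ D) :
    HasDerivAt (fun s => f (a s, b s)) (fu (a x, b x) * a' + fv (a x, b x) * b') x := by
  have hn := hD.mem_nhds hx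
  have h := hasStrictFDerivAt_uncurry_coprod (𝕜 := ℝ) (u := (a x, b x))
    (f := fun u v => f (u, v))
    (f₁ := fun u v => ContinuousLinearMap.toSpanSingleton ℝ (fu (u, v)))
    (f₂ := fun u v => ContinuousLinearMap.toSpanSingleton ℝ (fv (u, v)))
    (by filter_upwards [hn] with q hq; exact (du q hq).hasFDerivAt)
    (by filter_upwards [hn] with q hq; exact (dv q hq).hasFDerivAt)
    (by
      have := (hu.continuousAt hn)
      exact ((ContinuousLinearMap.toSpanSingletonLIE ℝ ℝ).continuous.continuousAt).comp this)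
    (by
      have := (hv.continuousAt hn)
      exact ((ContinuousLinearMap.toSpanSingletonLIE ℝ ℝ).continuous.continuousAt).comp this)
  have h2 := h.hasFDerivAt.comp_hasDerivAt x (ha.prodMk hb)
  have e : (((↿fun u v => ContinuousLinearMap.toSpanSingleton ℝ (fu (u, v))) (a x, b x)).coprod
      ((↿fun u v => ContinuousLinearMap.toSpanSingleton ℝ (fv (u, v))) (a x, b x))) (a', b') =
      fu (a x, b x) * a' + fv (a x, b x) * b' := by
    simp [Function.HasUncurry.uncurry, mul_comm]
  rw [e] at h2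
  exact h2

end Vale.Agent.P354B
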